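import Vale.Agent.P257.Q.PDefs

/-! Counting of monomials in letters `h_x, b_x`: the letter `x = (n, i)` stands for
`t_(n+1) ^ (p ^ i)`. -/

namespace Vale.Agent.P257.N

open Finset
open Vale.Agent.P257.Q.PC (wt)

/-- The degree of the letter `(n, i)`, i.e. of `t_(n+1) ^ (p ^ i)`, in units of `q`. -/
def lw (p : ℕ) (x : ℕ × ℕ) : ℕ := p ^ x.2 * wt p x.1

/-- There is a monomial `∏ h_x ^ ε_x * b_x ^ m_x`, `x ∈ L`, of degree `(s, N)`. -/
def Mon (p : ℕ) : List (ℕ × ℕ) → ℕ → ℕ → Prop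
  | [], s, N => s = 0 ∧ N = 0
  | x :: L, s, N => ∃ ε m s' N', ε ≤ 1 ∧ s = ε + 2 * m + s' ∧ N = (ε + p * m) * lw p x + N' ∧
      Mon p L s' N'

theorem Mon.exists_fun {p : ℕ} {L : List (ℕ × ℕ)} (hL : L.Nodup) {s N : ℕ} (h : Mon p L s N) :
    ∃ ε m : ℕ × ℕ → ℕ, (∀ x, ε x ≤ 1) ∧ (∀ x ∉ L, ε x = 0 ∧ m x = 0) ∧
      s = ∑ x ∈ L.toFinset, (ε x + 2 * m x) ∧
      N = ∑ x ∈ L.toFinset, (ε x + p * m x) * lw p x := by
  induction L generalizing s N with
  | nil =>
    obtain ⟨rfl, rfl⟩ := h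
    exact ⟨fun _ => 0, fun _ => 0, by simp, by simp, by simp, by simp⟩
  | cons y L ih =>
    obtain ⟨ε₀, m₀, s', N', hε, hs, hN, h⟩ := h
    obtain ⟨ε, m, h1, h2, h3, h4⟩ := ih (List.nodup_cons.1 hL).2 h
    have hy : y ∉ L := (List.nodup_cons.1 hL).1
    have hy' : y ∉ L.toFinset := by simpa using hy
    have hne : ∀ x ∈ L.toFinset, x ≠ y := fun x hx e => hy' (e ▸ hx)
    refine ⟨Function.update ε y ε₀, Function.update m y m₀, ?_, ?_, ?_, ?_⟩
    · intro x
      rcases eq_or_ne x y with rfl | hx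
      · simpa using hε
      · simpa [hx] using h1 x
    · intro x hx
      rw [List.mem_cons, not_or] at hx
      rw [Function.update_of_ne hx.1, Function.update_of_ne hx.1]
      exact h2 x hx.2
    · rw [List.toFinset_cons, sum_insert hy', Function.update_self, Function.update_self, hs, h3]
      congr 1
      exact sum_congr rfl fun x hx => by
        rw [Function.update_of_ne (hne x hx), Function.update_of_ne (hne x hx)]
    · rw [List.toFinset_cons, sum_insert hy', Function.update_self, Function.update_self, hN, h4]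
      congr 1
      exact sum_congr rfl fun x hx => by
        rw [Function.update_of_ne (hne x hx), Function.update_of_ne (hne x hx)]

/-- The converse of `Mon.exists_fun`. -/
theorem Mon.of_fun {p : ℕ} {L : List (ℕ × ℕ)} (hL : L.Nodup) (ε m : ℕ × ℕ → ℕ)
    (hε : ∀ x, ε x ≤ 1) : Mon p L (∑ x ∈ L.toFinset, (ε x + 2 * m x))
      (∑ x ∈ L.toFinset, (ε x + p * m x) * lw p x) := by
  induction L with
  | nil => simp [Mon]
  | cons y L ih =>
    have hy' : y ∉ L.toFinset := by simpa using (List.nodup_cons.1 hL).1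
    rw [List.toFinset_cons, sum_insert hy', sum_insert hy']
    exact ⟨ε y, m y, _, _, hε y, rfl, rfl, ih (List.nodup_cons.1 hL).2⟩

/-- The order of the letters is irrelevant, and letters may be added. -/
theorem Mon.mono {p : ℕ} {L L' : List (ℕ × ℕ)} (hL : L.Nodup) (hL' : L'.Nodup)
    (hsub : ∀ x ∈ L, x ∈ L') {s N : ℕ} (h : Mon p L s N) : Mon p L' s N := by
  obtain ⟨ε, m, h1, h2, h3, h4⟩ := h.exists_fun hL
  have hs : L.toFinset ⊆ L'.toFinset := fun x hx => by
    rw [List.mem_toFinset] at hx ⊢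
    exact hsub x hx
  have h5 := Mon.of_fun (p := p) hL' ε m h1
  have e1 : ∑ x ∈ L'.toFinset, (ε x + 2 * m x) = s := by
    rw [h3]
    exact (sum_subset hs fun x _ hx => by
      have := h2 x (by simpa using hx)
      simp [this.1, this.2]).symm
  have e2 : ∑ x ∈ L'.toFinset, (ε x + p * m x) * lw p x = N := by
    rw [h4]
    exact (sum_subset hs fun x _ hx => by
      have := h2 x (by simpa using hx)
      simp [this.1, this.2]).symm
  rwa [e1, e2] at h5

theorem le_lw {p : ℕ} (x : ℕ × ℕ) : p ^ (x.1 + x.2) ≤ lw p x := by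
  obtain ⟨i, j⟩ := x
  have : p ^ i ≤ ∑ a ∈ range (i + 1), p ^ a :=
    single_le_sum (f := fun a => p ^ a) (fun _ _ => Nat.zero_le _) (mem_range.2 (by omega))
  simp only [lw, wt]
  rw [add_comm, pow_add]
  exact Nat.mul_le_mul_left _ this

/-- The ten letters of degree `< p ^ 4`. -/
def U10 : Finset (ℕ × ℕ) :=
  {(0, 0), (1, 0), (2, 0), (3, 0), (0, 1), (1, 1), (2, 1), (0, 2), (1, 2), (0, 3)}

/-- The normal form of a monomial of degree `(s, N)`, `N < p ^ 4`; `hij, bij` are the exponents of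
`h_(i,j), b_(i,j)` in the usual notation (the letter `(i - 1, j)`). -/
structure NF (p s N : ℕ) (L : List (ℕ × ℕ)) where
  (h10 h20 h30 h40 h11 h21 h31 h12 h22 h13 b10 b20 b30 b11 b21 b12 : ℕ)
  l10 : h10 ≤ 1
  l20 : h20 ≤ 1
  l30 : h30 ≤ 1
  l40 : h40 ≤ 1
  l11 : h11 ≤ 1
  l21 : h21 ≤ 1
  l31 : h31 ≤ 1
  l12 : h12 ≤ 1
  l22 : h22 ≤ 1
  l13 : h13 ≤ 1
  hs : s = h10 + h20 + h30 + h40 + h11 + h21 + h31 + h12 + h22 + h13 +
    2 * (b10 + b20 + b30 + b11 + b21 + b12)
  hN : N = (h10 + h20 + h30 + h40) + p * ((h11 + h21 + h31 + h20 + h30 + h40 + b10 + b20 + b30) +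
    p * ((h12 + h22 + h21 + h31 + h30 + h40 + b20 + b30 + b11 + b21) +
      p * (h13 + h22 + h31 + h40 + b30 + b21 + b12)))
  e10 : (0, 0) ∉ L → h10 = 0 ∧ b10 = 0
  e11 : (0, 1) ∉ L → h11 = 0 ∧ b11 = 0
  e12 : (0, 2) ∉ L → h12 = 0 ∧ b12 = 0
  e13 : (0, 3) ∉ L → h13 = 0
  e20 : (1, 0) ∉ L → h20 = 0 ∧ b20 = 0
  e21 : (1, 1) ∉ L → h21 = 0 ∧ b21 = 0
  e22 : (1, 2) ∉ L → h22 = 0
  e30 : (2, 0) ∉ L → h30 = 0 ∧ b30 = 0
  e31 : (2, 1) ∉ L → h31 = 0
  e40 : (3, 0) ∉ L → h40 = 0

theorem mem_U10_of {x : ℕ × ℕ} (h : x.1 + x.2 ≤ 3) : x ∈ U10 := by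
  obtain ⟨i, j⟩ := x
  simp only at h
  simp only [U10, mem_insert, mem_singleton, Prod.mk.injEq]
  omega

theorem Mon.nf {p : ℕ} (hp : 2 ≤ p) {L : List (ℕ × ℕ)} (hL : L.Nodup)
    {s N : ℕ} (h : Mon p L s N) (hN4 : N < p ^ 4) : Nonempty (NF p s N L) := by
  obtain ⟨ε, m, h1, h2, h3, h4⟩ := h.exists_fun hL
  have key : ∀ x ∈ L, (ε x + p * m x) * lw p x ≤ N := by
    intro x hx
    rw [h4]
    exact single_le_sum (f := fun x => (ε x + p * m x) * lw p x) (fun _ _ => Nat.zero_le _)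
      (List.mem_toFinset.2 hx)
  have hpow : ∀ n, 4 ≤ n → p ^ 4 ≤ p ^ n := fun n hn => Nat.pow_le_pow_right (by omega) hn
  have big : ∀ x, 4 ≤ x.1 + x.2 → ε x = 0 ∧ m x = 0 := by
    intro x hx
    by_cases hxL : x ∈ L
    · have k1 := key x hxL
      have k2 := le_lw (p := p) x
      have k3 := hpow (x.1 + x.2) hx
      by_contra hne
      have : 1 ≤ ε x + p * m x := by
        rcases Nat.eq_zero_or_pos (ε x) with h0 | h0
        · have : 0 < m x := by
            rcases Nat.eq_zero_or_pos (m x) with h0' | h0'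
            · exact absurd ⟨h0, h0'⟩ hne
            · exact h0'
          nlinarith
        · omega
      nlinarith
    · exact h2 x hxL
  have mid : ∀ x, x.1 + x.2 = 3 → m x = 0 := by
    intro x hx
    by_cases hxL : x ∈ L
    · have k1 := key x hxL
      have k2 := le_lw (p := p) x
      rw [hx] at k2
      by_contra hne
      have hm : 1 ≤ m x := Nat.one_le_iff_ne_zero.2 hne
      have k4 : p ^ 4 = p * p ^ 3 := by ring
      have k5 : p * 1 ≤ ε x + p * m x := by nlinarith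
      have k6 : p * p ^ 3 ≤ (ε x + p * m x) * lw p x :=
        Nat.mul_le_mul (by omega) (by simpa using k2)
      omega
    · exact (h2 x hxL).2
  have sub : ∀ (f : ℕ × ℕ → ℕ), (∀ x, ε x = 0 ∧ m x = 0 → f x = 0) →
      ∑ x ∈ L.toFinset, f x = ∑ x ∈ U10, f x := by
    intro f hf
    have e1 : ∑ x ∈ L.toFinset, f x = ∑ x ∈ L.toFinset ∪ U10, f x := by
      refine sum_subset subset_union_left fun x _ hx => hf x (h2 x ?_)
      simpa using hx
    have e2 : ∑ x ∈ U10, f x = ∑ x ∈ L.toFinset ∪ U10, f x := by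
      refine sum_subset subset_union_right fun x hx hx' => hf x ?_
      refine big x ?_
      by_contra hlt
      exact hx' (mem_U10_of (by omega))
    rw [e1, e2]
  rw [sub _ (fun x hx => by simp [hx.1, hx.2])] at h3 h4
  simp only [U10, lw, wt] at h3 h4
  rw [sum_insert (by decide), sum_insert (by decide), sum_insert (by decide),
    sum_insert (by decide), sum_insert (by decide), sum_insert (by decide),
    sum_insert (by decide), sum_insert (by decide), sum_insert (by decide), sum_singleton] at h3 h4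
  have m40 := mid (3, 0) (by norm_num)
  have m31 := mid (2, 1) (by norm_num)
  have m22 := mid (1, 2) (by norm_num)
  have m13 := mid (0, 3) (by norm_num)
  rw [m40, m31, m22, m13] at h3 h4
  simp only [sum_range_succ, sum_range_zero] at h4
  exact ⟨{
    h10 := ε (0, 0), h20 := ε (1, 0), h30 := ε (2, 0), h40 := ε (3, 0), h11 := ε (0, 1)
    h21 := ε (1, 1), h31 := ε (2, 1), h12 := ε (0, 2), h22 := ε (1, 2), h13 := ε (0, 3)
    b10 := m (0, 0), b20 := m (1, 0), b30 := m (2, 0), b11 := m (0, 1), b21 := m (1, 1)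
    b12 := m (0, 2)
    l10 := h1 _, l20 := h1 _, l30 := h1 _, l40 := h1 _, l11 := h1 _, l21 := h1 _, l31 := h1 _
    l12 := h1 _, l22 := h1 _, l13 := h1 _
    hs := by rw [h3]; ring
    hN := by rw [h4]; ring
    e10 := fun hx => h2 _ hx
    e11 := fun hx => h2 _ hx
    e12 := fun hx => h2 _ hx
    e13 := fun hx => (h2 _ hx).1
    e20 := fun hx => h2 _ hx
    e21 := fun hx => h2 _ hx
    e22 := fun hx => (h2 _ hx).1
    e30 := fun hx => h2 _ hx
    e31 := fun hx => (h2 _ hx).1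
    e40 := fun hx => (h2 _ hx).1 }⟩

/-- Uniqueness of the last digit. -/
theorem digit {p c n A B : ℕ} (hc : c < p) (hn : n < p) (h : c + p * A = n + p * B) :
    c = n ∧ A = B := by
  have h1 : (c + p * A) % p = (n + p * B) % p := by rw [h]
  rw [Nat.add_mul_mod_self_left, Nat.add_mul_mod_self_left, Nat.mod_eq_of_lt hc,
    Nat.mod_eq_of_lt hn] at h1
  subst h1
  refine ⟨rfl, ?_⟩
  have : p * A = p * B := by omega
  exact Nat.eq_of_mul_eq_mul_left (by omega) this

/-- The next digit, with a carry `g`. -/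
theorem carry {p c n A B : ℕ} (hn : n < p) (h : c + p * A = n + p * B) :
    ∃ g, c = n + p * g ∧ A + g = B := by
  have h1 : (c + p * A) % p = (n + p * B) % p := by rw [h]
  rw [Nat.add_mul_mod_self_left, Nat.add_mul_mod_self_left, Nat.mod_eq_of_lt hn] at h1
  have h2 := Nat.mod_add_div c p
  refine ⟨c / p, by omega, ?_⟩
  have : p * (A + c / p) = p * B := by
    rw [mul_add]
    omega
  exact Nat.eq_of_mul_eq_mul_left (by omega) this

end Vale.Agent.P257.N
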