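import Vale.Agent.P257.N.Count

/-! The monomial counts used for `C1` and `C2`. -/

namespace Vale.Agent.P257.N

open Finset

/-- Five letters. -/
def U5 : Finset (ℕ × ℕ) := {(0, 1), (0, 2), (1, 0), (1, 1), (2, 0)}

/-- `D k = 1 + p + k (p + p² + p³)`. -/
def DD (p k : ℕ) : ℕ := 1 + p + k * (p + p ^ 2 + p ^ 3)

/-- The normal form of a monomial in the letters `U5`. -/
theorem Mon.nf5 {p : ℕ} {L : List (ℕ × ℕ)} (hL : L.Nodup) (hU : ∀ x ∈ L, x ∈ U5)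
    {s N : ℕ} (h : Mon p L s N) :
    ∃ h20 h30 h11 h21 h12 b20 b30 b11 b21 b12 : ℕ,
      h20 ≤ 1 ∧ h30 ≤ 1 ∧ h11 ≤ 1 ∧ h21 ≤ 1 ∧ h12 ≤ 1 ∧
      ((0, 1) ∉ L → h11 = 0 ∧ b11 = 0) ∧ ((0, 2) ∉ L → h12 = 0 ∧ b12 = 0) ∧
      ((1, 1) ∉ L → h21 = 0 ∧ b21 = 0) ∧ ((2, 0) ∉ L → h30 = 0 ∧ b30 = 0) ∧
      s = h20 + h30 + h11 + h21 + h12 + 2 * (b20 + b30 + b11 + b21 + b12) ∧
      N = (h20 + h30) + p * ((h11 + h21 + h20 + h30 + b20 + b30) +
        p * ((h12 + h21 + h30 + b20 + b30 + b11 + b21) + p * (b30 + b21 + b12))) := by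
  obtain ⟨ε, m, h1, h2, h3, h4⟩ := h.exists_fun hL
  have sub : ∀ (f : ℕ × ℕ → ℕ), (∀ x, ε x = 0 ∧ m x = 0 → f x = 0) →
      ∑ x ∈ L.toFinset, f x = ∑ x ∈ U5, f x := by
    intro f hf
    refine sum_subset (fun x hx => hU x (List.mem_toFinset.1 hx)) fun x _ hx => hf x (h2 x ?_)
    simpa using hx
  rw [sub _ (fun x hx => by simp [hx.1, hx.2])] at h3 h4
  simp only [U5, lw, Q.PC.wt] at h3 h4
  rw [sum_insert (by decide), sum_insert (by decide), sum_insert (by decide),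
    sum_insert (by decide), sum_singleton] at h3 h4
  simp only [sum_range_succ, sum_range_zero] at h4
  refine ⟨ε (1, 0), ε (2, 0), ε (0, 1), ε (1, 1), ε (0, 2), m (1, 0), m (2, 0), m (0, 1), m (1, 1),
    m (0, 2), h1 _, h1 _, h1 _, h1 _, h1 _, fun hx => h2 _ hx, fun hx => h2 _ hx,
    fun hx => h2 _ hx, fun hx => h2 _ hx, ?_, ?_⟩
  · rw [h3]; ring
  · rw [h4]; ring

/-- A carry vanishes if the digit sum is small. -/
theorem carry_zero {p c n g m : ℕ} (h : c = n + p * g) (hc : c < n + m) (hm : m ≤ p) : g = 0 := by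
  by_contra hg
  have : p * 1 ≤ p * g := Nat.mul_le_mul_left _ (by omega)
  omega

variable {p : ℕ} {L : List (ℕ × ℕ)}

theorem K1a (hp : 11 ≤ p) (hL : L.Nodup) (hU : ∀ x ∈ L, x ∈ U5) {ε j s N : ℕ}
    (hε : 1 ≤ ε + j) (hε' : ε ≤ 1) (hs : s + (ε + 2 * j) + 3 = 2 * p)
    (hN : N + (ε + p * j) = DD p (p - 2)) : ¬ Mon p L s N := by
  intro h
  obtain ⟨h20, h30, h11, h21, h12, b20, b30, b11, b21, b12, l20, l30, l11, l21, l12, -, -, -, -, hs',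
    hN'⟩ := h.nf5 hL hU
  obtain ⟨r, rfl⟩ : ∃ r, p = r + 2 := ⟨p - 2, by omega⟩
  have hD : DD (r + 2) (r + 2 - 2) = 1 + (r + 2) * ((r + 1) + (r + 2) * (r + (r + 2) * r)) := by
    simp only [DD, Nat.add_sub_cancel]; ring
  rw [hD, hN'] at hN
  have hN : (h20 + h30 + ε) + (r + 2) * ((h11 + h21 + h20 + h30 + b20 + b30 + j) +
        (r + 2) * ((h12 + h21 + h30 + b20 + b30 + b11 + b21) + (r + 2) * (b30 + b21 + b12))) =
      1 + (r + 2) * ((r + 1) + (r + 2) * (r + (r + 2) * r)) := by rw [← hN]; ring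
  obtain ⟨c0, hN⟩ := digit (by omega) (by omega) hN
  obtain ⟨g1, c1, hN⟩ := carry (by omega) hN
  obtain rfl : g1 = 0 := carry_zero (m := 8) c1 (by omega) (by omega)
  rw [add_zero] at hN
  obtain ⟨g2, c2, hN⟩ := carry (by omega) hN
  obtain rfl : g2 = 0 := carry_zero (m := 8) c2 (by omega) (by omega)
  zify at *
  linarith

theorem K1b (hp : 11 ≤ p) (hL : L.Nodup) (hU : ∀ x ∈ L, x ∈ U5) {ε j s N : ℕ}
    (hε : 1 ≤ ε + j) (hε' : ε ≤ 1) (hs : s + (ε + 2 * j) + 4 = 2 * p)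
    (hN : N + (ε + p * j) = p + DD p (p - 3)) : ¬ Mon p L s N := by
  intro h
  obtain ⟨h20, h30, h11, h21, h12, b20, b30, b11, b21, b12, l20, l30, l11, l21, l12, -, -, -, -, hs',
    hN'⟩ := h.nf5 hL hU
  obtain ⟨r, rfl⟩ : ∃ r, p = r + 3 := ⟨p - 3, by omega⟩
  have hD : r + 3 + DD (r + 3) (r + 3 - 3) = 1 + (r + 3) * ((r + 2) + (r + 3) * (r + (r + 3) * r)) := by
    simp only [DD, Nat.add_sub_cancel]; ring
  rw [hD, hN'] at hN
  have hN : (h20 + h30 + ε) + (r + 3) * ((h11 + h21 + h20 + h30 + b20 + b30 + j) +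
        (r + 3) * ((h12 + h21 + h30 + b20 + b30 + b11 + b21) + (r + 3) * (b30 + b21 + b12))) =
      1 + (r + 3) * ((r + 2) + (r + 3) * (r + (r + 3) * r)) := by rw [← hN]; ring
  obtain ⟨c0, hN⟩ := digit (by omega) (by omega) hN
  obtain ⟨g1, c1, hN⟩ := carry (by omega) hN
  obtain rfl : g1 = 0 := carry_zero (m := 8) c1 (by omega) (by omega)
  rw [add_zero] at hN
  obtain ⟨g2, c2, hN⟩ := carry (by omega) hN
  obtain rfl : g2 = 0 := carry_zero (m := 8) c2 (by omega) (by omega)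
  omega

theorem K2 (hp : 11 ≤ p) (hL : L.Nodup) (hU : ∀ x ∈ L, x ∈ U5) (h01 : (0, 1) ∉ L) {ε j s N : ℕ}
    (hε : 1 ≤ ε + j) (hε' : ε ≤ 1) (hs : s + (ε + 2 * j) + 3 = 2 * p)
    (hN : N + (ε + p * j) * p = DD p (p - 2)) : ¬ Mon p L s N := by
  intro h
  obtain ⟨h20, h30, h11, h21, h12, b20, b30, b11, b21, b12, l20, l30, l11, l21, l12, e11, -, -, -,
    hs', hN'⟩ := h.nf5 hL hU
  obtain ⟨rfl, rfl⟩ := e11 h01
  obtain ⟨r, rfl⟩ : ∃ r, p = r + 2 := ⟨p - 2, by omega⟩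
  have hD : DD (r + 2) (r + 2 - 2) = 1 + (r + 2) * ((r + 1) + (r + 2) * (r + (r + 2) * r)) := by
    simp only [DD, Nat.add_sub_cancel]; ring
  rw [hD, hN'] at hN
  have hN : (h20 + h30) + (r + 2) * ((h21 + h20 + h30 + b20 + b30 + ε) +
        (r + 2) * ((h12 + h21 + h30 + b20 + b30 + b21 + j) + (r + 2) * (b30 + b21 + b12))) =
      1 + (r + 2) * ((r + 1) + (r + 2) * (r + (r + 2) * r)) := by rw [← hN]; ring
  obtain ⟨c0, hN⟩ := digit (by omega) (by omega) hN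
  obtain ⟨g1, c1, hN⟩ := carry (by omega) hN
  obtain rfl : g1 = 0 := carry_zero (m := 8) c1 (by omega) (by omega)
  rw [add_zero] at hN
  obtain ⟨g2, c2, hN⟩ := carry (by omega) hN
  obtain rfl : g2 = 0 := carry_zero (m := 8) c2 (by omega) (by omega)
  zify at *
  linarith

theorem K3 (hp : 11 ≤ p) (hL : L.Nodup) (hU : ∀ x ∈ L, x ∈ U5) (h01 : (0, 1) ∉ L) {ε j s N : ℕ}
    (hε : j = 0 → ε = 0) (hε' : ε ≤ 1) (hs : s + (ε + 2 * j) + 4 = 2 * p)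
    (hN : N + (ε + p * j) * p = p + DD p (p - 3)) : ¬ Mon p L s N := by
  intro h
  obtain ⟨h20, h30, h11, h21, h12, b20, b30, b11, b21, b12, l20, l30, l11, l21, l12, e11, -, -, -,
    hs', hN'⟩ := h.nf5 hL hU
  obtain ⟨rfl, rfl⟩ := e11 h01
  obtain ⟨r, rfl⟩ : ∃ r, p = r + 3 := ⟨p - 3, by omega⟩
  have hD : r + 3 + DD (r + 3) (r + 3 - 3) = 1 + (r + 3) * ((r + 2) + (r + 3) * (r + (r + 3) * r)) := by
    simp only [DD, Nat.add_sub_cancel]; ring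
  rw [hD, hN'] at hN
  have hN : (h20 + h30) + (r + 3) * ((h21 + h20 + h30 + b20 + b30 + ε) +
        (r + 3) * ((h12 + h21 + h30 + b20 + b30 + b21 + j) + (r + 3) * (b30 + b21 + b12))) =
      1 + (r + 3) * ((r + 2) + (r + 3) * (r + (r + 3) * r)) := by rw [← hN]; ring
  obtain ⟨c0, hN⟩ := digit (by omega) (by omega) hN
  obtain ⟨g1, c1, hN⟩ := carry (by omega) hN
  obtain rfl : g1 = 0 := carry_zero (m := 8) c1 (by omega) (by omega)
  rw [add_zero] at hN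
  obtain ⟨g2, c2, hN⟩ := carry (by omega) hN
  obtain rfl : g2 = 0 := carry_zero (m := 8) c2 (by omega) (by omega)
  have hj : j = 0 := by omega
  obtain rfl := hε hj
  omega

theorem DD_eq (k : ℕ) : DD p k = 1 + p * ((k + 1) + p * (k + p * k)) := by
  simp only [DD]; ring

theorem K4a (hp : 11 ≤ p) (hL : L.Nodup) (hU : ∀ x ∈ L, x ∈ U5) (h01 : (0, 1) ∉ L)
    (h02 : (0, 2) ∉ L) {k N : ℕ} (hk : 1 ≤ k) (hk' : k + 2 ≤ p) (hN : N + p ^ 2 = DD p k) :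
    ¬ Mon p L (2 * k) N := by
  intro h
  obtain ⟨h20, h30, h11, h21, h12, b20, b30, b11, b21, b12, l20, l30, l11, l21, l12, e11, e12, -, -,
    hs', hN'⟩ := h.nf5 hL hU
  obtain ⟨rfl, rfl⟩ := e11 h01
  obtain ⟨rfl, rfl⟩ := e12 h02
  rw [DD_eq, hN'] at hN
  have hN : (h20 + h30) + p * ((h21 + h20 + h30 + b20 + b30) +
        p * ((h21 + h30 + b20 + b30 + b21 + 1) + p * (b30 + b21))) =
      1 + p * ((k + 1) + p * (k + p * k)) := by rw [← hN]; ring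
  obtain ⟨c0, hN⟩ := digit (by omega) (by omega) hN
  obtain ⟨g1, c1, hN⟩ := carry (by omega) hN
  obtain rfl : g1 = 0 := carry_zero (m := 8) c1 (by omega) (by omega)
  rw [add_zero] at hN
  obtain ⟨g2, c2, hN⟩ := carry (by omega) hN
  obtain rfl : g2 = 0 := carry_zero (m := 8) c2 (by omega) (by omega)
  omega

theorem K4b (hp : 11 ≤ p) (hL : L.Nodup) (hU : ∀ x ∈ L, x ∈ U5) (h01 : (0, 1) ∉ L)
    {k N : ℕ} (hk : 1 ≤ k) (hk' : k + 2 ≤ p) (hN : N + p ^ 3 = DD p k) :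
    ¬ Mon p L (2 * k - 1) N := by
  intro h
  obtain ⟨h20, h30, h11, h21, h12, b20, b30, b11, b21, b12, l20, l30, l11, l21, l12, e11, -, -, -,
    hs', hN'⟩ := h.nf5 hL hU
  obtain ⟨rfl, rfl⟩ := e11 h01
  rw [DD_eq, hN'] at hN
  have hN : (h20 + h30) + p * ((h21 + h20 + h30 + b20 + b30) +
        p * ((h12 + h21 + h30 + b20 + b30 + b21) + p * (b30 + b21 + b12 + 1))) =
      1 + p * ((k + 1) + p * (k + p * k)) := by rw [← hN]; ring
  obtain ⟨c0, hN⟩ := digit (by omega) (by omega) hN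
  obtain ⟨g1, c1, hN⟩ := carry (by omega) hN
  obtain rfl : g1 = 0 := carry_zero (m := 8) c1 (by omega) (by omega)
  rw [add_zero] at hN
  obtain ⟨g2, c2, hN⟩ := carry (by omega) hN
  obtain rfl : g2 = 0 := carry_zero (m := 8) c2 (by omega) (by omega)
  omega

theorem K4c (hp : 11 ≤ p) (hL : L.Nodup) (hU : ∀ x ∈ L, x ∈ U5) (h01 : (0, 1) ∉ L)
    (h02 : (0, 2) ∉ L) (h11 : (1, 1) ∉ L) {k N : ℕ} (hN : N + p + p ^ 2 = DD p k) :
    ¬ Mon p L (2 * k) N := by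
  intro h
  obtain ⟨h20, h30, h11, h21, h12, b20, b30, b11, b21, b12, l20, l30, l11, l21, l12, e11, e12, e21,
    -, hs', hN'⟩ := h.nf5 hL hU
  obtain ⟨rfl, rfl⟩ := e11 h01
  obtain ⟨rfl, rfl⟩ := e12 h02
  obtain ⟨rfl, rfl⟩ := e21 ‹_›
  rw [DD_eq, hN'] at hN
  have hN : (h20 + h30) + p * ((h20 + h30 + b20 + b30 + 1) +
        p * ((h30 + b20 + b30 + 1) + p * b30)) =
      1 + p * ((k + 1) + p * (k + p * k)) := by rw [← hN]; ring
  obtain ⟨c0, hN⟩ := digit (by omega) (by omega) hN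
  omega

theorem K4d (hp : 11 ≤ p) (hL : L.Nodup) (hU : ∀ x ∈ L, x ∈ U5) (h01 : (0, 1) ∉ L)
    (h02 : (0, 2) ∉ L) {k N : ℕ} (hk : 1 ≤ k) (hk' : k + 2 ≤ p)
    (hN : N + p ^ 2 + p ^ 3 = DD p k) : ¬ Mon p L (2 * k - 1) N := by
  intro h
  obtain ⟨h20, h30, h11, h21, h12, b20, b30, b11, b21, b12, l20, l30, l11, l21, l12, e11, e12, -,
    -, hs', hN'⟩ := h.nf5 hL hU
  obtain ⟨rfl, rfl⟩ := e11 h01
  obtain ⟨rfl, rfl⟩ := e12 h02
  rw [DD_eq, hN'] at hN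
  have hN : (h20 + h30) + p * ((h21 + h20 + h30 + b20 + b30) +
        p * ((h21 + h30 + b20 + b30 + b21 + 1) + p * (b30 + b21 + 1))) =
      1 + p * ((k + 1) + p * (k + p * k)) := by rw [← hN]; ring
  obtain ⟨c0, hN⟩ := digit (by omega) (by omega) hN
  obtain ⟨g1, c1, hN⟩ := carry (by omega) hN
  obtain rfl : g1 = 0 := carry_zero (m := 8) c1 (by omega) (by omega)
  omega

theorem K5a (hp : 11 ≤ p) (hL : L.Nodup) (hU : ∀ x ∈ L, x = (1, 0)) {j : ℕ} (hj : 1 ≤ j) :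
    ¬ Mon p L (2 * j + 1) (DD p j) := by
  intro h
  have hno : ∀ y : ℕ × ℕ, y ≠ (1, 0) → y ∉ L := fun y hy hy' => hy (hU y hy')
  obtain ⟨h20, h30, h11, h21, h12, b20, b30, b11, b21, b12, l20, l30, l11, l21, l12, e11, e12, e21,
    e30, hs', hN'⟩ := h.nf5 hL fun x hx => by rw [hU x hx]; decide
  obtain ⟨rfl, rfl⟩ := e11 (hno _ (by decide))
  obtain ⟨rfl, rfl⟩ := e12 (hno _ (by decide))
  obtain ⟨rfl, rfl⟩ := e21 (hno _ (by decide))
  obtain ⟨rfl, rfl⟩ := e30 (hno _ (by decide))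
  rw [DD_eq] at hN'
  obtain ⟨c0, hN⟩ := digit (by omega) (by omega) hN'.symm
  obtain rfl : h20 = 1 := by omega
  obtain rfl : b20 = j := by omega
  have e : p * (p * (p * b20)) = 0 := by
    have : 1 + p * (0 + 0 + 1 + 0 + b20 + 0 + p * (0 + 0 + 0 + b20 + 0 + 0 + 0 + p * (0 + 0 + 0))) +
      p * (p * (p * b20)) = 1 + p * (b20 + 1 + p * (b20 + p * b20)) := by ring
    omega
  have : 0 < p * (p * (p * b20)) := by positivity
  omega

theorem K5b (hp : 11 ≤ p) (hL : L.Nodup) (hU : ∀ x ∈ L, x = (1, 0)) {j N : ℕ} (hj : 1 ≤ j)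
    (hN : N + (1 + p + p ^ 2) = DD p j) : ¬ Mon p L (2 * j) N := by
  intro h
  have hno : ∀ y : ℕ × ℕ, y ≠ (1, 0) → y ∉ L := fun y hy hy' => hy (hU y hy')
  obtain ⟨h20, h30, h11, h21, h12, b20, b30, b11, b21, b12, l20, l30, l11, l21, l12, e11, e12, e21,
    e30, hs', hN'⟩ := h.nf5 hL fun x hx => by rw [hU x hx]; decide
  obtain ⟨rfl, rfl⟩ := e11 (hno _ (by decide))
  obtain ⟨rfl, rfl⟩ := e12 (hno _ (by decide))
  obtain ⟨rfl, rfl⟩ := e21 (hno _ (by decide))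
  obtain ⟨rfl, rfl⟩ := e30 (hno _ (by decide))
  obtain rfl : h20 = 0 := by omega
  obtain rfl : b20 = j := by omega
  rw [DD_eq, hN'] at hN
  have e : p ^ 2 = p ^ 3 * b20 := by
    have : 0 + 0 + p * (0 + 0 + 0 + 0 + b20 + 0 + p * (0 + 0 + 0 + b20 + 0 + 0 + 0 +
      p * (0 + 0 + 0))) + (1 + p + p ^ 3 * b20) = 1 + p * (b20 + 1 + p * (b20 + p * b20)) := by ring
    omega
  have h1 : p ^ 3 * 1 ≤ p ^ 3 * b20 := Nat.mul_le_mul_left _ hj
  have h2 : p ^ 3 = p * p ^ 2 := by ring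
  have h3 : 11 * p ^ 2 ≤ p * p ^ 2 := Nat.mul_le_mul_right _ hp
  have h4 : 0 < p ^ 2 := by positivity
  omega

theorem K6 (hp : 11 ≤ p) (hL : L.Nodup) (hU : ∀ x ∈ L, x ∈ U5) (h01 : (0, 1) ∉ L)
    (h02 : (0, 2) ∉ L) : ¬ Mon p L 2 (1 + 2 * p + p ^ 3) := by
  intro h
  obtain ⟨h20, h30, h11, h21, h12, b20, b30, b11, b21, b12, l20, l30, l11, l21, l12, e11, e12, -,
    -, hs', hN'⟩ := h.nf5 hL hU
  obtain ⟨rfl, rfl⟩ := e11 h01
  obtain ⟨rfl, rfl⟩ := e12 h02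
  rw [show 1 + 2 * p + p ^ 3 = 1 + p * (2 + p * (0 + p * 1)) by ring] at hN'
  obtain ⟨c0, hN⟩ := digit (by omega) (by omega) hN'.symm
  obtain ⟨g1, c1, hN⟩ := carry (by omega) hN
  obtain rfl : g1 = 0 := carry_zero (m := 8) c1 (by omega) (by omega)
  rw [add_zero] at hN
  obtain ⟨g2, c2, hN⟩ := carry (by omega) hN
  obtain rfl : g2 = 0 := carry_zero (m := 8) c2 (by omega) (by omega)
  omega

end Vale.Agent.P257.N
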