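import Vale.Agent.P257.N.Basic

/-! The monomial counts used for the top part of `G2`. -/

namespace Vale.Agent.P257.N

open Finset

/-- The letters contained in the following seven. -/
def U7 : Finset (ℕ × ℕ) := {(0, 0), (0, 1), (0, 2), (1, 0), (1, 1), (2, 0), (3, 0)}

/-- The normal form of a monomial in the letters `U7`. -/
theorem Mon.nf7 {p : ℕ} {L : List (ℕ × ℕ)} (hL : L.Nodup) (hU : ∀ x ∈ L, x ∈ U7)
    {s N : ℕ} (h : Mon p L s N) :
    ∃ h10 h20 h30 h40 h11 h21 h12 b10 b20 b30 b40 b11 b21 b12 : ℕ,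
      h10 ≤ 1 ∧ h20 ≤ 1 ∧ h30 ≤ 1 ∧ h40 ≤ 1 ∧ h11 ≤ 1 ∧ h21 ≤ 1 ∧ h12 ≤ 1 ∧
      ((3, 0) ∉ L → h40 = 0 ∧ b40 = 0) ∧
      s = h10 + h20 + h30 + h40 + h11 + h21 + h12 +
        2 * (b10 + b20 + b30 + b40 + b11 + b21 + b12) ∧
      N = (h10 + h20 + h30 + h40) + p * ((h11 + h21 + h20 + h30 + h40 + b10 + b20 + b30 + b40) +
        p * ((h12 + h21 + h30 + h40 + b20 + b30 + b40 + b11 + b21) +
          p * ((h40 + b30 + b40 + b21 + b12) + p * b40))) := by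
  obtain ⟨ε, m, h1, h2, h3, h4⟩ := h.exists_fun hL
  have sub : ∀ (f : ℕ × ℕ → ℕ), (∀ x, ε x = 0 ∧ m x = 0 → f x = 0) →
      ∑ x ∈ L.toFinset, f x = ∑ x ∈ U7, f x := by
    intro f hf
    refine sum_subset (fun x hx => hU x (List.mem_toFinset.1 hx)) fun x _ hx => hf x (h2 x ?_)
    simpa using hx
  rw [sub _ (fun x hx => by simp [hx.1, hx.2])] at h3 h4
  simp only [U7, lw, Q.PC.wt] at h3 h4
  rw [sum_insert (by decide), sum_insert (by decide), sum_insert (by decide),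
    sum_insert (by decide), sum_insert (by decide), sum_insert (by decide), sum_singleton] at h3 h4
  simp only [sum_range_succ, sum_range_zero] at h4
  refine ⟨ε (0, 0), ε (1, 0), ε (2, 0), ε (3, 0), ε (0, 1), ε (1, 1), ε (0, 2), m (0, 0), m (1, 0),
    m (2, 0), m (3, 0), m (0, 1), m (1, 1), m (0, 2), h1 _, h1 _, h1 _, h1 _, h1 _, h1 _, h1 _,
    fun hx => h2 _ hx, ?_, ?_⟩
  · rw [h3]; ring
  · rw [h4]; ring

theorem four_le_pow {p : ℕ} (hp : 5 ≤ p) : 2 + p + p ^ 2 < p ^ 4 := by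
  have h1 : p ^ 4 = p ^ 2 * p ^ 2 := by ring
  have h2 : 25 ≤ p ^ 2 := by nlinarith
  nlinarith

theorem M1 {p : ℕ} (hp : 5 ≤ p) {L : List (ℕ × ℕ)} (hL : L.Nodup) :
    ¬ Mon p L (2 * p - 2) (2 + p + p ^ 2) := by
  intro h
  obtain ⟨n⟩ := h.nf (by omega) hL (four_le_pow hp)
  obtain ⟨h10, h20, h30, h40, h11, h21, h31, h12, h22, h13, b10, b20, b30, b11, b21, b12, l10, l20,
    l30, l40, l11, l21, l31, l12, l22, l13, hs, hN, -, -, -, -, -, -, -, -, -, -⟩ := n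
  rw [show 2 + p + p ^ 2 = 2 + p * (1 + p * (1 + p * 0)) by ring] at hN
  obtain ⟨c0, hN⟩ := digit (by omega) (by omega) hN.symm
  obtain ⟨g, c1, hN⟩ := carry (by omega) hN
  have : g ≤ 1 := by nlinarith
  interval_cases g
  · obtain ⟨g, c2, hN⟩ := carry (n := 1) (B := 0) (by omega) hN
    have : g = 0 := by omega
    subst this
    omega
  · omega

theorem M5 {p : ℕ} (hp : 5 ≤ p) {L : List (ℕ × ℕ)} (hL : L.Nodup) :
    ¬ Mon p L (2 * p - 3) (2 + p + p ^ 2) := by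
  intro h
  obtain ⟨n⟩ := h.nf (by omega) hL (four_le_pow hp)
  obtain ⟨h10, h20, h30, h40, h11, h21, h31, h12, h22, h13, b10, b20, b30, b11, b21, b12, l10, l20,
    l30, l40, l11, l21, l31, l12, l22, l13, hs, hN, -, -, -, -, -, -, -, -, -, -⟩ := n
  rw [show 2 + p + p ^ 2 = 2 + p * (1 + p * (1 + p * 0)) by ring] at hN
  obtain ⟨c0, hN⟩ := digit (by omega) (by omega) hN.symm
  obtain ⟨g, c1, hN⟩ := carry (by omega) hN
  have : g ≤ 1 := by nlinarith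
  interval_cases g
  · obtain ⟨g, c2, hN⟩ := carry (n := 1) (B := 0) (by omega) hN
    have : g = 0 := by omega
    subst this
    omega
  · omega

/-- A carry is at most `1` if the digit sum is at most `p + 4`. -/
theorem carry_le {p c n g : ℕ} (hp : 7 ≤ p) (h : c = n + p * g) (hc : c ≤ p + 5) : g ≤ 1 := by
  by_contra hg
  have : p * 2 ≤ p * g := Nat.mul_le_mul_left _ (by omega)
  omega

theorem M6 {p : ℕ} (hp : 11 ≤ p) {L : List (ℕ × ℕ)} (hL : L.Nodup) (hU : ∀ x ∈ L, x ∈ U7) :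
    ¬ Mon p L (2 * p - 1) (2 + p + p ^ 2 + p ^ 3 + p ^ 4) := by
  intro h
  obtain ⟨h10, h20, h30, h40, h11, h21, h12, b10, b20, b30, b40, b11, b21, b12, l10, l20, l30, l40,
    l11, l21, l12, -, hs, hN⟩ := h.nf7 hL hU
  rw [show 2 + p + p ^ 2 + p ^ 3 + p ^ 4 = 2 + p * (1 + p * (1 + p * (1 + p * 1))) by ring] at hN
  obtain ⟨c0, hN⟩ := digit (by omega) (by omega) hN.symm
  obtain ⟨g1, c1, hN⟩ := carry (by omega) hN
  have e1 : g1 ≤ 1 := carry_le (by omega) c1 (by omega)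
  rw [add_right_comm] at hN
  obtain ⟨g2, c2, hN⟩ := carry (by omega) hN
  have e2 : g2 ≤ 1 := carry_le (by omega) c2 (by omega)
  rw [add_right_comm] at hN
  obtain ⟨g3, c3, hN⟩ := carry (by omega) hN
  have e3 : g3 ≤ 1 := by omega
  have hs' : (2 * p : ℤ) - 1 = h10 + h20 + h30 + h40 + h11 + h21 + h12 +
    2 * (b10 + b20 + b30 + b40 + b11 + b21 + b12) := by omega
  clear hs
  interval_cases g1 <;> interval_cases g2 <;> interval_cases g3 <;> zify at * <;> linarith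

theorem M9 {p : ℕ} (hp : 11 ≤ p) {L : List (ℕ × ℕ)} (hL : L.Nodup) (hU : ∀ x ∈ L, x ∈ U7) :
    ¬ Mon p L (2 * p - 2) (2 + p + p ^ 4) := by
  intro h
  obtain ⟨h10, h20, h30, h40, h11, h21, h12, b10, b20, b30, b40, b11, b21, b12, l10, l20, l30, l40,
    l11, l21, l12, -, hs, hN⟩ := h.nf7 hL hU
  rw [show 2 + p + p ^ 4 = 2 + p * (1 + p * (0 + p * (0 + p * 1))) by ring] at hN
  obtain ⟨c0, hN⟩ := digit (by omega) (by omega) hN.symm
  obtain ⟨g1, c1, hN⟩ := carry (by omega) hN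
  have e1 : g1 ≤ 1 := carry_le (by omega) c1 (by omega)
  rw [add_right_comm] at hN
  obtain ⟨g2, c2, hN⟩ := carry (by omega) hN
  have e2 : g2 ≤ 1 := carry_le (by omega) c2 (by omega)
  rw [add_right_comm] at hN
  obtain ⟨g3, c3, hN⟩ := carry (by omega) hN
  have e3 : g3 ≤ 1 := by omega
  have hs' : (2 * p : ℤ) - 2 = h10 + h20 + h30 + h40 + h11 + h21 + h12 +
    2 * (b10 + b20 + b30 + b40 + b11 + b21 + b12) := by omega
  clear hs
  interval_cases g1 <;> interval_cases g2 <;> interval_cases g3 <;> zify at * <;> linarith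

theorem M8 {p : ℕ} (hp : 11 ≤ p) {L : List (ℕ × ℕ)} (hL : L.Nodup) (hU : ∀ x ∈ L, x ∈ U7)
    (h3 : (3, 0) ∉ L) : ¬ Mon p L (2 * p - 2) (2 + p ^ 4) := by
  intro h
  obtain ⟨h10, h20, h30, h40, h11, h21, h12, b10, b20, b30, b40, b11, b21, b12, l10, l20, l30, l40,
    l11, l21, l12, e40, hs, hN⟩ := h.nf7 hL hU
  obtain ⟨rfl, rfl⟩ := e40 h3
  rw [show 2 + p ^ 4 = 2 + p * (0 + p * (0 + p * (0 + p * 1))) by ring] at hN
  obtain ⟨c0, hN⟩ := digit (by omega) (by omega) hN.symm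
  obtain ⟨g1, c1, hN⟩ := carry (by omega) hN
  have e1 : g1 ≤ 1 := carry_le (by omega) c1 (by omega)
  rw [add_right_comm] at hN
  obtain ⟨g2, c2, hN⟩ := carry (by omega) hN
  have e2 : g2 ≤ 1 := carry_le (by omega) c2 (by omega)
  rw [add_right_comm] at hN
  obtain ⟨g3, c3, hN⟩ := carry (by omega) hN
  have e3 : g3 ≤ 1 := by omega
  have hs' : (2 * p : ℤ) - 2 = h10 + h20 + h30 + h11 + h21 + h12 +
    2 * (b10 + b20 + b30 + b11 + b21 + b12) := by omega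
  clear hs
  interval_cases g1 <;> interval_cases g2 <;> interval_cases g3 <;> zify at * <;> linarith

theorem M10 {p : ℕ} (hp : 11 ≤ p) {L : List (ℕ × ℕ)} (hL : L.Nodup) (hU : ∀ x ∈ L, x ∈ U7)
    (h3 : (3, 0) ∉ L) {N : ℕ} (hN' : N + p ^ 2 + p ^ 3 = 2 + p ^ 4) : ¬ Mon p L (2 * p - 3) N := by
  intro h
  obtain ⟨h10, h20, h30, h40, h11, h21, h12, b10, b20, b30, b40, b11, b21, b12, l10, l20, l30, l40,
    l11, l21, l12, e40, hs, hN⟩ := h.nf7 hL hU
  obtain ⟨rfl, rfl⟩ := e40 h3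
  obtain ⟨r, rfl⟩ : ∃ r, p = r + 2 := ⟨p - 2, by omega⟩
  have e0 : N = 2 + (r + 2) * (0 + (r + 2) * ((r + 1) + (r + 2) * (r + (r + 2) * 0))) := by
    have : (r + 2) ^ 4 = (r + 2) * (0 + (r + 2) * ((r + 1) + (r + 2) * (r + (r + 2) * 0))) +
      (r + 2) ^ 2 + (r + 2) ^ 3 := by ring
    omega
  rw [e0] at hN
  obtain ⟨c0, hN⟩ := digit (by omega) (by omega) hN.symm
  obtain ⟨g1, c1, hN⟩ := carry (by omega) hN
  have e1 : g1 ≤ 1 := carry_le (by omega) c1 (by omega)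
  rw [add_right_comm] at hN
  obtain ⟨g2, c2, hN⟩ := carry (by omega) hN
  have e2 : g2 ≤ 1 := carry_le (by omega) c2 (by omega)
  rw [add_right_comm] at hN
  obtain ⟨g3, c3, hN⟩ := carry (by omega) hN
  have e3 : g3 ≤ 1 := by omega
  have hs' : (2 * (r + 2) : ℤ) - 3 = h10 + h20 + h30 + h11 + h21 + h12 +
    2 * (b10 + b20 + b30 + b11 + b21 + b12) := by omega
  clear hs
  interval_cases g1 <;> interval_cases g2 <;> interval_cases g3 <;> zify at * <;> linarith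

end Vale.Agent.P257.N
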