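import Vale.Agent.P257.N.Count
import Vale.Agent.P257.X.Iface

/-! The instance of `X.Num`. -/

namespace Vale.Agent.P257.N

open Vale.Agent.P257.Q.PC (wt ee)
open Vale.Agent.P257.X (NM NM' Num)

theorem num {p : ℕ} (hp : 11 ≤ p) : Num p := by
  obtain ⟨r, rfl⟩ : ∃ r, p = r + 1 := ⟨p - 1, by omega⟩
  have hr : 10 ≤ r := by omega
  have hrr : 10 * r ≤ r * r := Nat.mul_le_mul_right _ hr
  have hrrr : 10 * (r * r) ≤ r * (r * r) := Nat.mul_le_mul_right _ hr
  have hrrrr : 10 * (r * (r * r)) ≤ r * (r * (r * r)) := Nat.mul_le_mul_right _ hr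
  have e2 : (r + 1) ^ 2 = r * r + 2 * r + 1 := by ring
  have e3 : (r + 1) ^ 3 = r * (r * r) + 3 * (r * r) + 3 * r + 1 := by ring
  have e4 : (r + 1) ^ 4 = r * (r * (r * r)) + 4 * (r * (r * r)) + 6 * (r * r) + 4 * r + 1 := by
    ring
  refine ⟨?_, ?_, ?_, ?_, ?_, ?_, ?_, ?_, ?_, ?_, ?_⟩
  · exact fun s N h L hL => vanish (by omega) hL h
  · exact fun k h1 h2 h3 L hL => G3 hp hL h1 h2 h3
  · exact fun k h1 L hL => G5 hp hL h1
  · exact fun j h1 h2 L hL => G6 hp hL h1 (by omega)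
  · intro j h1 h2
    obtain ⟨i, hi⟩ : ∃ i, r = i + 1 + j := ⟨r - 1 - j, by omega⟩
    have hi' : 0 ≤ i := Nat.zero_le _
    refine ⟨fun L hL h0 => E2a (j := i) hp hL h0 (by omega) ?_,
      fun L hL h0 => E2a' (j := i) hp hL h0 (by omega) (by omega) ?_⟩
    · subst hi; ring
    · subst hi
      have : 3 + 3 * (i + 1 + j + 1) + (i + 1 + j + 1) ^ 3 + j * (i + 1 + j + 1) - 1 =
        2 + 3 * (i + 1 + j + 1) + (i + 1 + j + 1) ^ 3 + j * (i + 1 + j + 1) := by omega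
      rw [this]; ring
  · intro j h1 h2
    obtain ⟨i, hi⟩ : ∃ i, r = i + 1 + j := ⟨r - 1 - j, by omega⟩
    refine ⟨fun L hL h0 => E2b (j := i) hp hL h0 (by omega) (by omega) ?_,
      fun L hL h0 => E2b' (j := i) hp hL h0 (by omega) (by omega) ?_⟩
    · subst hi; ring
    · subst hi
      have : 3 + 3 * (i + 1 + j + 1) + 2 * (i + 1 + j + 1) ^ 2 + j * (i + 1 + j + 1) ^ 2 -
        (i + 1 + j + 1) =
        3 + 2 * (i + 1 + j + 1) + 2 * (i + 1 + j + 1) ^ 2 + j * (i + 1 + j + 1) ^ 2 := by omega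
      rw [this]; ring
  · intro j h1 h2
    have h2' : j + 3 ≤ r * r := by
      have : (r + 1) ^ 2 - 2 * (r + 1) - 2 = r * r - 3 := by omega
      omega
    obtain ⟨i, hi⟩ : ∃ i, r * r = i + 3 + j := ⟨r * r - 3 - j, by omega⟩
    refine ⟨fun L hL h0 => Ep1 (j := i) hp hL h0 ?_ ?_ ?_,
      fun L hL h0 => res (B := 4 + 3 * (r + 1) + j) hp hL ?_ ?_⟩
    · rw [Nat.add_sub_cancel]; omega
    · rw [Nat.add_sub_cancel]; omega
    · linear_combination (r + 1) * hi.symm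
    · have : 4 * (r + 1) + 3 * (r + 1) ^ 2 + j * (r + 1) - 1 + 1 =
        4 * (r + 1) + 3 * (r + 1) ^ 2 + j * (r + 1) := by omega
      rw [this]; ring
    · have : j * (r + 1) ≤ (r * r) * (r + 1) := Nat.mul_le_mul_right _ (by omega)
      have h6 : (r * r) * (r + 1) = r * (r * r) + r * r := by ring
      omega
  · intro j h1 h2
    have h3 : j ≤ (r + 1) ^ 2 := by omega
    exact ⟨fun L hL h0 => Ep hp hL h0 h1 h3,
      fun L hL h0 => Ep' hp hL h0 h1 h3 (by omega)⟩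
  · intro j h1 h2
    rw [Nat.add_sub_cancel] at h2
    have e2' : r ^ 2 = r * r := by ring
    obtain ⟨i, hi⟩ : ∃ i, r * r = i + j := ⟨r * r - j, by omega⟩
    refine ⟨fun L hL h0 => E6 (j := i) hp hL h0 ?_ ?_ ?_,
      fun L hL h0 => res (B := 4 + 3 * (r + 1) + j) hp hL ?_ ?_⟩
    · rw [Nat.add_sub_cancel]; omega
    · rw [Nat.add_sub_cancel]; omega
    · linear_combination (r + 1) * hi.symm
    · have : 4 * (r + 1) + 3 * (r + 1) ^ 2 + j * (r + 1) - 1 + 1 =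
        4 * (r + 1) + 3 * (r + 1) ^ 2 + j * (r + 1) := by omega
      rw [this]; ring
    · have : j * (r + 1) ≤ (r * r) * (r + 1) := Nat.mul_le_mul_right _ (by omega)
      have h6 : (r * r) * (r + 1) = r * (r * r) + r * r := by ring
      omega
  · intro j h1 h2
    exact ⟨fun L hL h0 => E6a (a := j) hp hL h0 h2 (by simp only [ee]; omega),
      fun L hL h0 => E6a' (a := j) hp hL h0 h2 (by omega) (by simp only [ee]; omega)⟩
  · intro j h1
    refine ⟨fun L hL h0 => M7 (a := j) hp hL h0 h1 rfl (by ring),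
      fun L hL h0 => M7' (a := j) hp hL h0 h1 rfl ?_⟩
    have : 1 ≤ ee (r + 1) := by simp only [ee]; omega
    rw [show (2 + j) * (r + 1) = (j + 2) * (r + 1) by ring]
    omega

end Vale.Agent.P257.N
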