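import Vale.Agent.P257.N.Count
import Vale.Agent.P257.X.Iface

/-! The monomial counts used for the existence of `V(1), V(2), V(3)` and of their products. -/

namespace Vale.Agent.P257.N

open Finset Vale.Agent.P257.X

/-- The degree of `v_i` in units of `q`. -/
def br (p i : ℕ) : ℕ := ∑ a ∈ range i, p ^ a

theorem v3_lin {r s h10 h20 h30 h11 h21 h12 b10 b20 b11 k g e1 e2 e3 x1 x2 x3 c : ℤ}
    (hr : 10 ≤ r) (hk : 1 ≤ k)
    (he1 : e1 ≤ 1) (he2 : e2 ≤ e1) (he3 : e3 ≤ e2) (h3 : x3 ≤ 1) (n1 : 0 ≤ x1)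
    (n2 : 0 ≤ x2) (hc : -1 ≤ c) (hc' : c ≤ 7)
    (l10 : h10 ≤ 1) (l20 : h20 ≤ 1) (l11 : h11 ≤ 1) (m30 : 0 ≤ h30) (m11 : 0 ≤ h11)
    (m21 : 0 ≤ h21) (m12 : 0 ≤ h12) (mb20 : 0 ≤ b20) (mb11 : 0 ≤ b11)
    (hs : s + c = k * (2 * r))
    (hs' : s = h10 + h20 + h30 + h11 + h21 + h12 + 2 * (b10 + b20 + b11))
    (c0 : h10 + h20 + h30 = k + e1 + x1 + x2 + x3)
    (c1 : h11 + h21 + h20 + h30 + b10 + b20 = e2 + x2 + x3 + (r + 1) * g)
    (c2 : h12 + h21 + h30 + b20 + b11 + g = e3 + x3) : False := by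
  have W : h10 + 3 * h20 + 5 * h30 + h11 + 3 * h21 + h12 + 2 * b20 =
    2 * (k + e1 + x1 + x2 + x3 + e2 + x2 + x3 + e3 + x3) + c + 2 * (g * r - k * r) := by
    linarith
  rcases lt_or_ge g k with h | h
  · have : k * r - g * r ≥ 10 := by nlinarith
    linarith
  · have hkg : g * r - k * r ≥ 0 := by nlinarith
    linarith

/-- The bound on `k`. -/
theorem v3_bound {r s k c M : ℕ} (hr : 10 ≤ r) (hM : M ≤ 6 + 4 * (r + 1) + 2 * ((r + 1) * (r + 1)))
    (hc : c ≤ 7) (hs : k * (2 * r) ≤ s + c)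
    (h : (r + 1) * s ≤ 2 * (M + k) + (r + 1)) : k ≤ 3 := by
  by_contra hk4
  obtain ⟨i, rfl⟩ : ∃ i, k = i + 4 := ⟨k - 4, by omega⟩
  have e2 : (r + 1) * ((i + 4) * (2 * r)) ≤ (r + 1) * (s + 7) := Nat.mul_le_mul_left _ (by omega)
  nlinarith [Nat.zero_le (i * r * r), Nat.zero_le (i * r)]

variable {p : ℕ} {L : List (ℕ × ℕ)}

theorem v3_core (hp : 11 ≤ p) (hL : L.Nodup) {k e1 e2 e3 x1 x2 x3 s : ℕ} {c : ℤ} (hk : 1 ≤ k)
    (he1 : e1 ≤ 1) (he2 : e2 ≤ e1) (he3 : e3 ≤ e2) (h1 : x1 ≤ 2) (h2 : x2 ≤ 2)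
    (h3 : x3 ≤ 1) (hc : -1 ≤ c) (hc' : c ≤ 7) (hs : (s : ℤ) + c = k * (2 * (p - 1))) :
    ¬ Mon p L s ((k + e1 + x1 + x2 + x3) + p * ((e2 + x2 + x3) + p * ((e3 + x3) + p * 0))) := by
  intro h
  have hsl := h.slope (by omega) hL
  obtain ⟨r, rfl⟩ : ∃ r, p = r + 1 := ⟨p - 1, by omega⟩
  push_cast at hs
  rw [add_sub_cancel_right] at hs
  have q1 : (r + 1) * ((r + 1) * (e3 + x3)) ≤ (r + 1) * ((r + 1) * 2) :=
    Nat.mul_le_mul_left _ (Nat.mul_le_mul_left _ (by omega))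
  have q2 : (r + 1) * (e2 + x2 + x3) ≤ (r + 1) * 4 := Nat.mul_le_mul_left _ (by omega)
  have hk3 : k ≤ 3 := by
    refine v3_bound (r := r) (s := s) (c := 7) (by omega) (le_refl _) (le_refl _) ?_ ?_
    · zify; linarith
    · refine hsl.trans ?_
      nlinarith
  obtain ⟨n⟩ := h.nf (by omega) hL (by
    refine lt_pow4 (by omega) ?_
    nlinarith [Nat.zero_le (r ^ 3), Nat.zero_le (r^2)])
  obtain ⟨h10, h20, h30, h40, h11, h21, h31, h12, h22, h13, b10, b20, b30, b11, b21, b12, l10, l20,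
    l30, l40, l11, l21, l31, l12, l22, l13, hs', hN, -, -, -, -, -, -, -, -, -, -⟩ := n
  obtain ⟨c0, hN⟩ := digit (by omega) (by omega) hN.symm
  obtain ⟨g1, c1, hN⟩ := carry (by omega) hN
  have hg1 : g1 ≤ 2 := by omega
  rw [add_right_comm] at hN
  obtain ⟨g2, c2, hN⟩ := carry (by omega) hN
  obtain rfl : g2 = 0 := by omega
  obtain rfl : h40 = 0 := by omega
  obtain rfl : h31 = 0 := by omega
  obtain rfl : h22 = 0 := by omega
  obtain rfl : h13 = 0 := by omega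
  obtain rfl : b30 = 0 := by omega
  obtain rfl : b21 = 0 := by omega
  obtain rfl : b12 = 0 := by omega
  rw [mul_zero, add_zero] at c2
  simp only [add_zero] at c0 c1 c2 hs'
  refine v3_lin (r := r) (s := s) (h10 := h10) (h20 := h20) (h30 := h30) (h11 := h11) (h21 := h21)
    (h12 := h12) (b10 := b10) (b20 := b20) (b11 := b11) (k := k) (g := g1) (e1 := e1) (e2 := e2)
    (e3 := e3) (x1 := x1) (x2 := x2) (x3 := x3) (c := c) (by omega) (by omega) (by omega) (by omega)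
    (by omega) (by omega) (by omega) (by omega) hc hc' (by omega) (by omega) (by omega)
    (by omega) (by omega) (by omega) (by omega) (by omega) (by omega) hs ?_ ?_ ?_ ?_
  · rw [hs']; push_cast; ring
  · exact_mod_cast c0
  · exact_mod_cast c1
  · have : h12 + h21 + h30 + b20 + b11 + g1 = e3 + x3 := by omega
    exact_mod_cast this

theorem sum_four {A : Finset ℕ} (hA : A ⊆ range 4) (f : ℕ → ℕ) :
    ∑ i ∈ A, f i = (if 0 ∈ A then 1 else 0) * f 0 + (if 1 ∈ A then 1 else 0) * f 1 +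
      (if 2 ∈ A then 1 else 0) * f 2 + (if 3 ∈ A then 1 else 0) * f 3 := by
  have : ∑ i ∈ A, f i = ∑ i ∈ range 4, (if i ∈ A then 1 else 0) * f i := by
    simp only [ite_mul, one_mul, zero_mul]
    rw [sum_ite_mem, inter_eq_right.2 hA]
  rw [this]
  simp only [sum_range_succ, sum_range_zero, zero_add]

theorem br_eq {p j : ℕ} (hj : j ≤ 3) : br p j = (if 1 ≤ j then 1 else 0) +
    p * ((if 2 ≤ j then 1 else 0) + p * (if 3 ≤ j then 1 else 0)) := by
  interval_cases j <;> simp [br, sum_range_succ]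
  ring

/-- The obstructions to the products. -/
theorem V3 (hp : 11 ≤ p) {n j k : ℕ} {A B : Finset ℕ} (hn : n ≤ 3) (hj : j ≤ n) (hk : 1 ≤ k)
    (hA : A ⊆ range j) (hB : B ⊆ range (n + 1)) :
    NM p (k * (2 * (p - 1)) - (A.card + B.card))
      (br p j + ∑ i ∈ A, br p i + ∑ i ∈ B, br p i + k) := by
  intro L hL
  have hA4 : A ⊆ range 4 := hA.trans (range_subset_range.2 (by omega))
  have hB4 : B ⊆ range 4 := hB.trans (range_subset_range.2 (by omega))
  have cA := sum_four hA4 fun _ => 1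
  have cB := sum_four hB4 fun _ => 1
  rw [sum_const, smul_eq_mul, mul_one] at cA cB
  rw [sum_four hA4, sum_four hB4, br_eq (hj.trans hn)]
  have h3A : 3 ∉ A := fun h => by have := mem_range.1 (hA h); omega
  have i0 : ∀ (X : Finset ℕ) (i : ℕ), (if i ∈ X then 1 else 0 : ℕ) ≤ 1 := fun X i => by
    split_ifs <;> omega
  have j0 : ∀ i : ℕ, (if i ≤ j then 1 else 0 : ℕ) ≤ 1 := fun i => by
    split_ifs <;> omega
  have j1 : (if 2 ≤ j then 1 else 0 : ℕ) ≤ (if 1 ≤ j then 1 else 0 : ℕ) := by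
    split_ifs <;> omega
  have j2 : (if 3 ≤ j then 1 else 0 : ℕ) ≤ (if 2 ≤ j then 1 else 0 : ℕ) := by
    split_ifs <;> omega
  rw [if_neg h3A] at cA ⊢
  have A0 := i0 A 0
  have A1 := i0 A 1
  have A2 := i0 A 2
  have B0 := i0 B 0
  have B1 := i0 B 1
  have B2 := i0 B 2
  have B3 := i0 B 3
  have E1 := j0 1
  generalize (if 0 ∈ A then 1 else 0 : ℕ) = a0 at *
  generalize (if 1 ∈ A then 1 else 0 : ℕ) = a1 at *
  generalize (if 2 ∈ A then 1 else 0 : ℕ) = a2 at *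
  generalize (if 0 ∈ B then 1 else 0 : ℕ) = b0 at *
  generalize (if 1 ∈ B then 1 else 0 : ℕ) = b1 at *
  generalize (if 2 ∈ B then 1 else 0 : ℕ) = b2 at *
  generalize (if 3 ∈ B then 1 else 0 : ℕ) = b3 at *
  generalize (if 1 ≤ j then 1 else 0 : ℕ) = e1 at *
  generalize (if 2 ≤ j then 1 else 0 : ℕ) = e2 at *
  generalize (if 3 ≤ j then 1 else 0 : ℕ) = e3 at *
  have hk' : 1 * (2 * (p - 1)) ≤ k * (2 * (p - 1)) := Nat.mul_le_mul_right _ hk
  have key := v3_core (x1 := a1 + b1) (x2 := a2 + b2) (x3 := b3) (e1 := e1) (e2 := e2) (e3 := e3)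
    (s := k * (2 * (p - 1)) - (A.card + B.card)) (c := (A.card + B.card : ℕ)) hp hL hk E1 j1 j2
    (by omega) (by omega) (by omega) (by omega) (by omega) (by
      have : k * (2 * (p - 1)) - (A.card + B.card) + (A.card + B.card) = k * (2 * (p - 1)) := by
        omega
      have h := congrArg (Nat.cast : ℕ → ℤ) this
      push_cast [Nat.cast_sub (show 1 ≤ p by omega)] at h ⊢
      exact h)
  convert key using 2
  simp [br, sum_range_succ]
  ring

theorem sum_br_le {A : Finset ℕ} {n : ℕ} (h : A ⊆ range n) :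
    ∑ i ∈ A, br p i ≤ ∑ i ∈ range n, br p i := sum_le_sum_of_subset h

/-- The same for the multiples of `v_i`, `i > n`. -/
theorem V3_mult (hp : 11 ≤ p) {n j k w N : ℕ} {A B : Finset ℕ} (hn : n ≤ 3) (hj : j ≤ n)
    (hk : 1 ≤ k) (hA : A ⊆ range j) (hB : B ⊆ range (n + 1)) (hw : br p (n + 1) ≤ w)
    (hN : N + w = br p j + ∑ i ∈ A, br p i + ∑ i ∈ B, br p i + k) :
    NM p (k * (2 * (p - 1)) - (A.card + B.card)) N := by
  intro L hL hM
  have hsl := hM.slope (by omega) hL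
  have hAn : A ⊆ range n := hA.trans (range_subset_range.2 hj)
  have cA : A.card ≤ n := by simpa using card_le_card hAn
  have cB : B.card ≤ n + 1 := by simpa using card_le_card hB
  have sA := sum_br_le (p := p) hAn
  have sB := sum_br_le (p := p) hB
  have sj : br p j ≤ br p n := sum_le_sum_of_subset (range_subset_range.2 hj)
  obtain ⟨r, rfl⟩ : ∃ r, p = r + 1 := ⟨p - 1, by omega⟩
  rw [Nat.add_sub_cancel] at hsl
  have hk' : 1 * (2 * r) ≤ k * (2 * r) := Nat.mul_le_mul_right _ hk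
  have hs : k * (2 * r) ≤ k * (2 * r) - (A.card + B.card) + (A.card + B.card) := by omega
  have hk3 : k ≤ 3 := by
    refine v3_bound (r := r) (s := k * (2 * r) - (A.card + B.card)) (c := A.card + B.card)
      (M := br (r + 1) j + ∑ i ∈ A, br (r + 1) i + ∑ i ∈ B, br (r + 1) i) (by omega) ?_ (by omega)
      hs (by omega)
    refine (Nat.add_le_add (Nat.add_le_add sj sA) sB).trans ?_
    interval_cases n <;> simp [br, sum_range_succ] <;> nlinarith
  have hM' : br (r + 1) (n + 1) ≤ br (r + 1) n + ∑ i ∈ range n, br (r + 1) i +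
      ∑ i ∈ range (n + 1), br (r + 1) i + k := by omega
  rcases Nat.eq_zero_or_pos n with rfl | hn0
  · have : br (r + 1) (0 + 1) = 1 := by simp [br]
    have h1 : (r + 1) * (k * (2 * r) - (A.card + B.card)) ≥ (r + 1) * (k * (2 * r) - 1) :=
      Nat.mul_le_mul_left _ (by omega)
    have h2 : br (r + 1) j + ∑ i ∈ A, br (r + 1) i + ∑ i ∈ B, br (r + 1) i = 0 := by
      have e0 : br (r + 1) 0 = 0 := by simp [br]
      have : ∑ i ∈ range (0 + 1), br (r + 1) i = 0 := by simp [br]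
      have : ∑ i ∈ range 0, br (r + 1) i = 0 := by simp
      omega
    have h3 : (r + 1) * (k * (2 * r) - 1) + (r + 1) = (r + 1) * (k * (2 * r)) := by
      rw [← mul_add_one]; congr 1; omega
    have h4 : (r + 1) * (k * (2 * r)) ≥ (r + 1) * (1 * (2 * r)) := Nat.mul_le_mul_left _ hk'
    nlinarith
  · interval_cases n <;> simp [br, sum_range_succ] at hM' <;> nlinarith

/-- The obstructions to the survival of `v_m`. -/
theorem V3_perm (hp : 11 ≤ p) {m k : ℕ} (hm : m ≤ 3) (hk : 1 ≤ k) :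
    NM p (k * (2 * (p - 1)) + 1) (br p m + k) := by
  intro L hL
  rw [br_eq hm]
  have j0 : ∀ i : ℕ, (if i ≤ m then 1 else 0 : ℕ) ≤ 1 := fun i => by
    split_ifs <;> omega
  have j1 : (if 2 ≤ m then 1 else 0 : ℕ) ≤ (if 1 ≤ m then 1 else 0 : ℕ) := by
    split_ifs <;> omega
  have j2 : (if 3 ≤ m then 1 else 0 : ℕ) ≤ (if 2 ≤ m then 1 else 0 : ℕ) := by
    split_ifs <;> omega
  have key := v3_core (x1 := 0) (x2 := 0) (x3 := 0) (e1 := if 1 ≤ m then 1 else 0)
    (e2 := if 2 ≤ m then 1 else 0) (e3 := if 3 ≤ m then 1 else 0)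
    (s := k * (2 * (p - 1)) + 1) (c := -1) hp hL hk (j0 1) j1 j2
    (by omega) (by omega) (by omega) (by omega) (by omega) (by
      push_cast [Nat.cast_sub (show 1 ≤ p by omega)]
      ring)
  convert key using 2
  ring

theorem V3_perm_mult (hp : 11 ≤ p) {m k w N : ℕ} (hk : 1 ≤ k) (hw : br p m ≤ w)
    (hN : N + w = br p m + k) : NM p (k * (2 * (p - 1)) + 1) N := by
  intro L hL hM
  have hsl := hM.slope (by omega) hL
  obtain ⟨r, rfl⟩ : ∃ r, p = r + 1 := ⟨p - 1, by omega⟩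
  rw [Nat.add_sub_cancel] at hsl
  have h1 : N ≤ k := by omega
  nlinarith [Nat.zero_le (k * r)]

end Vale.Agent.P257.N
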