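import Vale.Agent.P257.N.Basic

/-! Non-existence of monomials in the degrees needed for `PFacts`. -/

namespace Vale.Agent.P257.N

open Finset
open Vale.Agent.P257.Q.PC (wt ee)

theorem le_lw' {p : ℕ} (hp : 1 ≤ p) {x : ℕ × ℕ} (hx : x ≠ (0, 0)) : p ≤ lw p x := by
  refine le_trans ?_ (le_lw x)
  have : 1 ≤ x.1 + x.2 := by
    rcases Nat.eq_zero_or_pos (x.1 + x.2) with h | h
    · exact absurd (Prod.ext (by simp; omega) (by simp; omega)) hx
    · exact h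
  calc p = p ^ 1 := (pow_one p).symm
    _ ≤ _ := Nat.pow_le_pow_right hp this

theorem Mon.slope₀ {p : ℕ} (hp : 1 ≤ p) {L : List (ℕ × ℕ)} (hL : (0, 0) ∉ L) {s N : ℕ}
    (h : Mon p L s N) : p * s ≤ 2 * N := by
  induction L generalizing s N with
  | nil => obtain ⟨rfl, rfl⟩ := h; simp
  | cons y L ih =>
    obtain ⟨ε, m, s', N', hε, rfl, rfl, h⟩ := h
    rw [List.mem_cons, not_or] at hL
    have h1 := ih hL.2 h
    have h2 := le_lw' hp (Ne.symm hL.1)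
    have h3 : p * ε ≤ ε * lw p y := by nlinarith
    have h4 : p * m * 1 ≤ p * m * lw p y := Nat.mul_le_mul_left _ (by omega)
    nlinarith

theorem Mon.slope {p : ℕ} (hp : 1 ≤ p) {L : List (ℕ × ℕ)} (hL : L.Nodup) {s N : ℕ}
    (h : Mon p L s N) : p * s ≤ 2 * N + p := by
  induction L generalizing s N with
  | nil => obtain ⟨rfl, rfl⟩ := h; simp
  | cons y L ih =>
    obtain ⟨ε, m, s', N', hε, rfl, rfl, h⟩ := h
    rw [List.nodup_cons] at hL
    rcases eq_or_ne y (0, 0) with rfl | hy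
    · have h1 := h.slope₀ hp hL.1
      have h2 : lw p (0, 0) = 1 := by simp [lw, wt]
      rw [h2]
      have h3 : p * ε ≤ p * 1 := Nat.mul_le_mul_left _ hε
      nlinarith
    · have h1 := ih hL.2 h
      have h2 := le_lw' hp hy
      have h3 : p * ε ≤ ε * lw p y := by nlinarith
      have h4 : p * m * 1 ≤ p * m * lw p y := Nat.mul_le_mul_left _ (by omega)
      nlinarith

variable {p : ℕ} {L : List (ℕ × ℕ)}

theorem vanish (hp : 1 ≤ p) (hL : L.Nodup) {s N : ℕ} (h : 2 * N + p < p * s) : ¬ Mon p L s N :=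
  fun hM => by have := hM.slope hp hL; omega

theorem G3_large (hp : 11 ≤ p) {k : ℕ} (hk : p + 3 ≤ k) :
    2 * (ee p + k) + p < p * (k * (2 * (p - 1)) + 1) := by
  obtain ⟨r, rfl⟩ : ∃ r, p = r + 1 := ⟨p - 1, by omega⟩
  obtain ⟨j, rfl⟩ : ∃ j, k = r + 4 + j := ⟨k - (r + 4), by omega⟩
  simp only [ee, Nat.add_sub_cancel]
  have h1 : 10 ≤ r := by omega
  nlinarith [Nat.mul_le_mul h1 h1, Nat.mul_le_mul (Nat.mul_le_mul h1 h1) h1,
    Nat.zero_le (j * r), Nat.zero_le (j * r * r), mul_pos (show 0 < r by omega) (show 0 < r by omega)]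

theorem pow4_gt (hp : 11 ≤ p) : 11 * p ^ 3 ≤ p ^ 4 := by
  have : p ^ 4 = p * p ^ 3 := by ring
  rw [this]
  exact Nat.mul_le_mul_right _ hp

theorem pow3_gt (hp : 11 ≤ p) : 11 * p ^ 2 ≤ p ^ 3 := by
  have : p ^ 3 = p * p ^ 2 := by ring
  rw [this]
  exact Nat.mul_le_mul_right _ hp

theorem pow2_gt (hp : 11 ≤ p) : 11 * p ≤ p ^ 2 := by
  have : p ^ 2 = p * p := by ring
  rw [this]
  exact Nat.mul_le_mul_right _ hp

/-- The normal form with digits: `c₀ .. c₃` are the numbers of letters covering the positions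
`0 .. 3` and `W = 2 (c₀ + c₁ + c₂ + c₃) - s`. -/
structure DF (L : List (ℕ × ℕ)) where
  (h10 h20 h30 h40 h11 h21 h31 h12 h22 h13 b10 b20 b30 b11 b21 b12 c0 c1 c2 c3 W : ℕ)
  l10 : h10 ≤ 1
  l20 : h20 ≤ 1
  l30 : h30 ≤ 1
  l40 : h40 ≤ 1
  l11 : h11 ≤ 1
  l21 : h21 ≤ 1
  l31 : h31 ≤ 1
  l12 : h12 ≤ 1
  l22 : h22 ≤ 1
  l13 : h13 ≤ 1
  h0 : h10 + h20 + h30 + h40 = c0
  h1 : h11 + h21 + h31 + h20 + h30 + h40 + b10 + b20 + b30 = c1
  h2 : h12 + h22 + h21 + h31 + h30 + h40 + b20 + b30 + b11 + b21 = c2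
  h3 : h13 + h22 + h31 + h40 + b30 + b21 + b12 = c3
  hW : h10 + h11 + h12 + h13 + 3 * (h20 + h21 + h22) + 5 * (h30 + h31) + 7 * h40 +
    2 * (b20 + b21) + 4 * b30 = W
  e10 : (0, 0) ∉ L → h10 = 0 ∧ b10 = 0
  e11 : (0, 1) ∉ L → h11 = 0 ∧ b11 = 0
  e12 : (0, 2) ∉ L → h12 = 0 ∧ b12 = 0
  e13 : (0, 3) ∉ L → h13 = 0
  e20 : (1, 0) ∉ L → h20 = 0 ∧ b20 = 0
  e21 : (1, 1) ∉ L → h21 = 0 ∧ b21 = 0
  e22 : (1, 2) ∉ L → h22 = 0
  e30 : (2, 0) ∉ L → h30 = 0 ∧ b30 = 0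
  e31 : (2, 1) ∉ L → h31 = 0
  e40 : (3, 0) ∉ L → h40 = 0

theorem Mon.df (hp : 2 ≤ p) (hL : L.Nodup) {s N : ℕ} (h : Mon p L s N) (hN4 : N < p ^ 4) :
    ∃ n : DF L, s + n.W = 2 * (n.c0 + n.c1 + n.c2 + n.c3) ∧
      N = n.c0 + p * (n.c1 + p * (n.c2 + p * n.c3)) := by
  obtain ⟨n⟩ := h.nf hp hL hN4
  obtain ⟨h10, h20, h30, h40, h11, h21, h31, h12, h22, h13, b10, b20, b30, b11, b21, b12, l10, l20,
    l30, l40, l11, l21, l31, l12, l22, l13, hs, hN, e10, e11, e12, e13, e20, e21, e22, e30, e31,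
    e40⟩ := n
  exact ⟨⟨h10, h20, h30, h40, h11, h21, h31, h12, h22, h13, b10, b20, b30, b11, b21, b12,
    _, _, _, _, _, l10, l20, l30, l40, l11, l21, l31, l12, l22, l13, rfl, rfl, rfl, rfl, rfl,
    e10, e11, e12, e13, e20, e21, e22, e30, e31, e40⟩, by rw [hs]; ring, hN⟩

theorem DF.c0_le (n : DF L) : n.c0 ≤ 4 := by
  have := n.l10; have := n.l20; have := n.l30; have := n.l40; have := n.h0
  omega

theorem sum_zero₇ {a b c d e f g : ℕ} (h : a + b + c + d + e + f + g = 0) :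
    a = 0 ∧ b = 0 ∧ c = 0 ∧ d = 0 ∧ e = 0 ∧ f = 0 ∧ g = 0 := by
  simpa [Nat.add_eq_zero_iff, and_assoc] using h

/-- Bounds for the `W`-count when position `3` is not covered. -/
theorem DF.W_le (n : DF L) : n.c3 = 0 →
    n.W ≤ 14 + 2 * n.c2 ∧ (n.c2 = 0 → n.W ≤ 5) ∧ (n.c2 = 1 → n.W ≤ 7 + n.c0) := by
  obtain ⟨h10, h20, h30, h40, h11, h21, h31, h12, h22, h13, b10, b20, b30, b11, b21, b12, c0, c1, c2,
    c3, W, l10, l20, l30, l40, l11, l21, l31, l12, l22, l13, H0, H1, H2, H3, HW, -⟩ := n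
  dsimp only
  intro h3
  rw [h3] at H3
  obtain ⟨rfl, rfl, rfl, rfl, rfl, rfl, rfl⟩ := sum_zero₇ H3
  clear H1 H3 l13 l22 l31 l40
  simp only [Nat.add_zero, Nat.mul_zero] at H0 H2 HW
  refine ⟨?_, ?_, ?_⟩
  · clear H0
    omega
  · clear H0
    intro h
    rw [h] at H2
    omega
  · intro h
    rw [h] at H2
    omega

theorem mul_two_le {p x : ℕ} (h : 2 ≤ x) : 2 * p ≤ p * x := by
  rw [mul_comm]
  exact Nat.mul_le_mul_left _ h

theorem G3 (hp : 11 ≤ p) (hL : L.Nodup) {k : ℕ} (hk : 3 ≤ k) (hk1 : k ≠ p - 1) (hkp : k ≠ p) :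
    ¬ Mon p L (k * (2 * (p - 1)) + 1) (ee p + k) := by
  intro hM
  have hk3 : k ≤ p + 2 := by
    by_contra hlt
    exact vanish (by omega) hL (G3_large hp (by omega)) hM
  have hlt : ee p + k < p ^ 4 := by
    have e3 := pow3_gt hp
    have e4 := pow4_gt hp
    have e2 := pow2_gt hp
    simp only [ee]
    omega
  obtain ⟨n, hs, hN⟩ := hM.df (by omega) hL hlt
  have hc := n.c0_le
  have hW := n.W_le
  simp only [ee] at hN
  by_cases hA : k + 1 < p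
  · obtain ⟨hc0, hN1⟩ := digit (p := p) (c := n.c0) (n := 1 + k)
      (B := 1 + p * (1 + p * 1)) (by omega) (by omega) (by rw [← hN]; ring)
    obtain ⟨g, hg, hN2⟩ := carry (p := p) (by omega) hN1
    have k0 : n.h10 + n.h20 + n.h30 + n.h40 = 4 := by rw [n.h0]; omega
    have l1 := n.l10
    have l2 := n.l20
    have l3 := n.l30
    have l4 := n.l40
    have h2 := n.h2
    have h3 := n.h3
    have h5 : 1 ≤ n.c3 := by omega
    have h6 : 2 ≤ n.c2 := by omega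
    have : p * 1 ≤ p * n.c3 := Nat.mul_le_mul_left _ h5
    omega
  · obtain ⟨a, ha⟩ : ∃ a, k + 1 = p + a := ⟨k + 1 - p, by omega⟩
    obtain ⟨hc0, hN1⟩ := digit (p := p) (c := n.c0) (n := a)
      (B := 2 + p * (1 + p * 1)) (by omega) (by omega) (by
        rw [← hN]
        linear_combination ha)
    obtain ⟨g, hg, hN2⟩ := carry (p := p) (by omega) hN1
    obtain ⟨r, rfl⟩ : ∃ r, p = r + 1 := ⟨p - 1, by omega⟩
    obtain ⟨a', rfl⟩ : ∃ a', a = a' + 2 := ⟨a - 2, by omega⟩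
    obtain rfl : k = r + 2 + a' := by omega
    rw [Nat.add_sub_cancel] at hs
    have hrr : 10 * r ≤ r * r := Nat.mul_le_mul_right _ (by omega)
    have hs' : (r + 2 + a') * (2 * r) + 1 = 2 * (r * r) + 2 * (a' * r) + 4 * r + 1 := by ring
    rw [hs'] at hs
    have ha' : a' ≤ 1 := by omega
    have h3 : n.c3 = 0 ∨ n.c3 = 1 := by
      by_contra hc
      have := mul_two_le (p := r + 1) (x := n.c3) (by omega)
      omega
    rcases h3 with h3 | h3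
    · have hW := hW h3
      rw [h3] at hN2 hs
      have hg1 : r + 1 + a' ≤ g := by
        by_contra hlt
        have h5 : r * g ≤ r * (r + a') := Nat.mul_le_mul_left _ (by omega)
        have h6 : r * (r + a') = r * r + a' * r := by ring
        have h7 : (r + 1) * g = r * g + g := by ring
        rw [h6] at h5
        rw [h7] at hg
        clear hlt hN hN1
        omega
      obtain ⟨d, rfl⟩ : ∃ d, g = r + 1 + a' + d := ⟨g - (r + 1 + a'), by omega⟩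
      have h6 : (r + 1) * (r + 1 + a' + d) = r * r + a' * r + 2 * r + 1 + a' + d * r + d := by ring
      rw [h6] at hg
      have h7 : d ≤ 1 := by omega
      rcases Nat.le_one_iff_eq_zero_or_eq_one.1 ha' with rfl | rfl <;>
      rcases Nat.le_one_iff_eq_zero_or_eq_one.1 h7 with rfl | rfl <;> omega
    · rw [h3] at hN2 hs
      have hg1 : g ≤ 1 := by omega
      have : (r + 1) * g ≤ (r + 1) * 1 := Nat.mul_le_mul_left _ hg1
      omega

/-- Without the letter `(0, 0)` many letters cover position `2`. -/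
theorem DF.d0 (n : DF L) (h : (0, 0) ∉ L) {s : ℕ}
    (hs : s + n.W = 2 * (n.c0 + n.c1 + n.c2 + n.c3)) :
    n.h10 = 0 ∧ s + n.h20 + 3 * n.h30 + 3 * n.h40 ≤ 2 * (n.c0 + n.c2) + 1 + 2 * n.c3 := by
  obtain ⟨e1, e2⟩ := n.e10 h
  refine ⟨e1, ?_⟩
  have h0 := n.h0
  have h1 := n.h1
  have h2 := n.h2
  have h3 := n.h3
  have hW := n.hW
  have l := n.l11
  rw [e1] at h0 hW
  rw [e2] at h1
  rw [← hW, ← h0, ← h1, ← h2, ← h3] at hs
  rw [← h0, ← h2, ← h3]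
  clear h0 h1 h2 h3 hW e1 e2
  linarith

/-- The relations between the digits and the letters `h_(i,0)`. -/
theorem DF.low (n : DF L) : n.h10 + n.h20 + n.h30 + n.h40 = n.c0 ∧ n.h10 ≤ 1 ∧ n.h20 ≤ 1 ∧
    n.h30 ≤ 1 ∧ n.h40 ≤ 1 ∧ n.h20 + n.h30 + n.h40 ≤ n.c1 ∧ n.h30 + n.h40 ≤ n.c2 ∧
    n.h40 ≤ n.c3 := by
  have h0 := n.h0
  have h1 := n.h1
  have h2 := n.h2
  have h3 := n.h3
  refine ⟨h0, n.l10, n.l20, n.l30, n.l40, ?_, ?_, ?_⟩ <;> omega

theorem lt_pow4 (hp : 11 ≤ p) {N : ℕ} (h : N ≤ 10 * p ^ 3) : N < p ^ 4 := by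
  have := pow4_gt hp
  have : 0 < p ^ 3 := pow_pos (by omega) 3
  omega

/-- `G5`. -/
theorem G5 (hp : 11 ≤ p) (hL : L.Nodup) {k : ℕ} (hk : 1 ≤ k) :
    ¬ Mon p L (k * (2 * (p - 1)) + 6) (1 + 4 * p + 2 * p ^ 2 + k) := by
  intro hM
  have e3 := pow3_gt hp
  have e4 := pow4_gt hp
  have e2 := pow2_gt hp
  have hk2 : k ≤ 2 := by
    by_contra hlt
    refine vanish (by omega) hL ?_ hM
    obtain ⟨r, rfl⟩ : ∃ r, p = r + 1 := ⟨p - 1, by omega⟩
    obtain ⟨j, rfl⟩ : ∃ j, k = j + 3 := ⟨k - 3, by omega⟩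
    simp only [Nat.add_sub_cancel]
    have h1 : 10 ≤ r := by omega
    nlinarith [Nat.mul_le_mul h1 h1, Nat.zero_le (j * r), Nat.zero_le (j * r * r)]
  obtain ⟨n, hs, hN⟩ := hM.df (by omega) hL (by omega)
  have hc := n.c0_le
  have hW := n.W_le
  obtain ⟨k0, l1, l2, l3, l4, k1, k2, k3⟩ := n.low
  obtain ⟨hc0, hN1⟩ := digit (p := p) (c := n.c0) (n := 1 + k)
      (B := 4 + p * 2) (by omega) (by omega) (by rw [← hN]; ring)
  obtain ⟨g, hg, hN2⟩ := carry (p := p) (by omega) hN1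
  have h3 : n.c3 = 0 := by
    by_contra hc
    have : p * 1 ≤ p * n.c3 := Nat.mul_le_mul_left _ (by omega)
    omega
  have hW := hW h3
  rw [h3] at hN2 hs
  have hg2 : g ≤ 2 := by omega
  clear hN hN1 e2 e3 e4 hM
  obtain ⟨r, rfl⟩ : ∃ r, p = r + 1 := ⟨p - 1, by omega⟩
  rw [Nat.add_sub_cancel] at hs
  obtain rfl | rfl : k = 1 ∨ k = 2 := by omega
  all_goals
    obtain rfl | rfl | rfl : g = 0 ∨ g = 1 ∨ g = 2 := by omega
    all_goals omega

/-- `G6` for `3 ≤ j ≤ p - 2`. -/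
theorem G6 (hp : 11 ≤ p) (hL : L.Nodup) {j : ℕ} (hj : 3 ≤ j) (hj' : j + 2 ≤ p) :
    ¬ Mon p L (j * (2 * (p - 1)) + 6) (ee p + 3 * p + j) := by
  intro hM
  have e3 := pow3_gt hp
  have e2 := pow2_gt hp
  obtain ⟨n, hs, hN⟩ := hM.df (by omega) hL (lt_pow4 hp (by simp only [ee]; omega))
  simp only [ee] at hN
  have hc := n.c0_le
  obtain ⟨k0, l1, l2, l3, l4, k1, k2, k3⟩ := n.low
  obtain ⟨hc0, hN1⟩ := digit (p := p) (c := n.c0) (n := 1 + j)
      (B := 4 + p * (1 + p * 1)) (by omega) (by omega) (by rw [← hN]; ring)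
  obtain ⟨g, hg, hN2⟩ := carry (p := p) (by omega) hN1
  have : p * 1 ≤ p * n.c3 := Nat.mul_le_mul_left _ (by omega)
  omega

/-- No monomial in the degree of the cells of `F_p[t_1^(p^3)]` above `x^p`. -/
theorem cell (hp : 11 ≤ p) (hL : L.Nodup) : ¬ Mon p L (2 * p - 2) (2 + p + p ^ 2) := by
  intro hM
  have e3 := pow3_gt hp
  have e2 := pow2_gt hp
  obtain ⟨n, hs, hN⟩ := hM.df (by omega) hL (lt_pow4 hp (by omega))
  have hc := n.c0_le
  have hW := n.W_le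
  obtain ⟨k0, l1, l2, l3, l4, k1, k2, k3⟩ := n.low
  obtain ⟨hc0, hN1⟩ := digit (p := p) (c := n.c0) (n := 2)
      (B := 1 + p * 1) (by omega) (by omega) (by rw [← hN]; ring)
  obtain ⟨g, hg, hN2⟩ := carry (p := p) (by omega) hN1
  have h3 : n.c3 = 0 := by
    by_contra hc
    have : p * 1 ≤ p * n.c3 := Nat.mul_le_mul_left _ (by omega)
    omega
  have hW := hW h3
  rw [h3] at hN2 hs
  obtain rfl | rfl : g = 0 ∨ g = 1 := by omega
  all_goals omega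

/-- `b_(1,0)`-surjectivity for `k = 2`, first condition. -/
theorem E2a (hp : 11 ≤ p) (hL : L.Nodup) (h0 : (0, 0) ∉ L) {j s N : ℕ} (hj : j + 3 ≤ p)
    (hN : N + p * j = 3 + p + p ^ 2 + p ^ 3) : ¬ Mon p L s N := by
  intro hM
  have e3 := pow3_gt hp
  have e2 := pow2_gt hp
  obtain ⟨n, hs, hN'⟩ := hM.df (by omega) hL (lt_pow4 hp (by omega))
  have hc := n.c0_le
  obtain ⟨k0, l1, l2, l3, l4, k1, k2, k3⟩ := n.low
  have hd := n.d0 h0 hs
  subst hN'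
  obtain ⟨hc0, hN1⟩ := digit (p := p) (c := n.c0) (n := 3)
      (A := n.c1 + p * (n.c2 + p * n.c3) + j) (B := 1 + p * (1 + p * 1)) (by omega) (by omega)
      (by linear_combination hN)
  have h3 : p ^ 2 * 1 ≤ p ^ 2 * n.c3 := Nat.mul_le_mul_left _ (by omega)
  have h4 : p * 2 ≤ p * n.c2 := Nat.mul_le_mul_left _ (by omega)
  have h5 : p * (n.c2 + p * n.c3) = p * n.c2 + p ^ 2 * n.c3 := by ring
  have h6 : p * (1 + p * 1) = p + p ^ 2 := by ring
  omega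

theorem mul_c2_c3 (hp : 1 ≤ p) (a b : ℕ) : p * (a + b) ≤ p * (a + p * b) := by
  refine Nat.mul_le_mul_left _ (Nat.add_le_add_left ?_ _)
  calc b = 1 * b := (one_mul b).symm
    _ ≤ p * b := Nat.mul_le_mul_right _ hp

/-- `b_(1,0)`-surjectivity for `k = 2`, second condition. -/
theorem E2a' (hp : 11 ≤ p) (hL : L.Nodup) (h0 : (0, 0) ∉ L) {j s N : ℕ} (hj : j + 3 ≤ p)
    (hs : s + 2 * j + 4 = 4 * p) (hN : N + p * j = 2 + p + p ^ 2 + p ^ 3) : ¬ Mon p L s N := by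
  intro hM
  have e3 := pow3_gt hp
  have e2 := pow2_gt hp
  obtain ⟨n, hs', hN'⟩ := hM.df (by omega) hL (lt_pow4 hp (by omega))
  have hc := n.c0_le
  obtain ⟨k0, l1, l2, l3, l4, k1, k2, k3⟩ := n.low
  have hd := n.d0 h0 hs'
  subst hN'
  obtain ⟨hc0, hN1⟩ := digit (p := p) (c := n.c0) (n := 2)
      (A := n.c1 + p * (n.c2 + p * n.c3) + j) (B := 1 + p * (1 + p * 1)) (by omega) (by omega)
      (by linear_combination hN)
  have h5 := mul_c2_c3 (p := p) (by omega) n.c2 n.c3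
  have h6 : p * (1 + p * 1) = p + p * p := by ring
  have h7 : n.c2 + n.c3 ≤ p := by
    by_contra hlt
    have h8 : p * (p + 1) ≤ p * (n.c2 + n.c3) := Nat.mul_le_mul_left _ (by omega)
    have h9 : p * (p + 1) = p + p * p := by ring
    omega
  omega

/-- `b_(1,1)`-surjectivity for `k = 2`: the letters `h_(1,1), b_(1,1)` are excluded. -/
theorem DF.d1 (n : DF L) (h : (0, 1) ∉ L) (h3 : n.c3 = 0) {s : ℕ}
    (hs : s + n.W = 2 * (n.c0 + n.c1 + n.c2 + n.c3)) :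
    s + n.h10 + 3 * n.h20 + 3 * n.h30 + n.h21 = 2 * (n.c0 + n.c1) + n.h12 ∧ n.h40 = 0 := by
  obtain ⟨e1, e2⟩ := n.e11 h
  have h0 := n.h0
  have h1 := n.h1
  have h2 := n.h2
  have h3' := n.h3
  have hW := n.hW
  rw [h3] at h3' hs
  obtain ⟨z1, z2, z3, z4, z5, z6, z7⟩ := sum_zero₇ h3'
  refine ⟨?_, z4⟩
  rw [e1, z2, z3, z4, z5, z6, z1] at hW
  rw [z4] at h0
  rw [z3, z4, z5, e1] at h1
  rw [z2, z3, z4, z5, z6, e2] at h2
  omega

theorem E2b (hp : 11 ≤ p) (hL : L.Nodup) (h0 : (0, 1) ∉ L) {j s N : ℕ} (hj : j + 3 ≤ p)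
    (hs : s + 2 * j = 2 * p + 1) (hN : N + j * p ^ 2 = 3 + 3 * p + p ^ 3) : ¬ Mon p L s N := by
  intro hM
  have e3 := pow3_gt hp
  have e2 := pow2_gt hp
  obtain ⟨n, hs', hN'⟩ := hM.df (by omega) hL (lt_pow4 hp (by omega))
  have hc := n.c0_le
  obtain ⟨k0, l1, l2, l3, l4, k1, k2, k3⟩ := n.low
  subst hN'
  obtain ⟨hc0, hN1⟩ := digit (p := p) (c := n.c0) (n := 3)
      (A := n.c1 + p * (n.c2 + p * n.c3) + j * p) (B := 3 + p * p) (by omega) (by omega)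
      (by linear_combination hN)
  obtain ⟨g, hg, hN2⟩ := carry (p := p) (n := 3) (c := n.c1) (A := n.c2 + p * n.c3 + j) (B := p)
    (by omega) (by linear_combination hN1)
  have h3 : n.c3 = 0 := by
    by_contra hc
    have : p * 1 ≤ p * n.c3 := Nat.mul_le_mul_left _ (by omega)
    omega
  obtain ⟨hd, h40⟩ := n.d1 h0 h3 hs'
  rw [h3] at hN2
  clear hN hN1 e2 e3 hM
  rcases Nat.lt_or_ge g 1 with hg1 | hg1
  · obtain rfl : g = 0 := by omega
    have := n.l21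
    have := n.l12
    omega
  · have : p * 1 ≤ p * g := Nat.mul_le_mul_left _ hg1
    have := n.l21
    omega

theorem E2b' (hp : 11 ≤ p) (hL : L.Nodup) (h0 : (0, 1) ∉ L) {j s N : ℕ} (hj : j + 3 ≤ p)
    (hs : s + 2 * j = 2 * p) (hN : N + j * p ^ 2 = 3 + 2 * p + p ^ 3) : ¬ Mon p L s N := by
  intro hM
  have e3 := pow3_gt hp
  have e2 := pow2_gt hp
  obtain ⟨n, hs', hN'⟩ := hM.df (by omega) hL (lt_pow4 hp (by omega))
  have hc := n.c0_le
  obtain ⟨k0, l1, l2, l3, l4, k1, k2, k3⟩ := n.low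
  subst hN'
  obtain ⟨hc0, hN1⟩ := digit (p := p) (c := n.c0) (n := 3)
      (A := n.c1 + p * (n.c2 + p * n.c3) + j * p) (B := 2 + p * p) (by omega) (by omega)
      (by linear_combination hN)
  obtain ⟨g, hg, hN2⟩ := carry (p := p) (n := 2) (c := n.c1) (A := n.c2 + p * n.c3 + j) (B := p)
    (by omega) (by linear_combination hN1)
  have h3 : n.c3 = 0 := by
    by_contra hc
    have : p * 1 ≤ p * n.c3 := Nat.mul_le_mul_left _ (by omega)
    omega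
  obtain ⟨hd, h40⟩ := n.d1 h0 h3 hs'
  rw [h3] at hN2
  clear hN hN1 e2 e3 hM
  rcases Nat.lt_or_ge g 1 with hg1 | hg1
  · obtain rfl : g = 0 := by omega
    have := n.l21
    have := n.l12
    omega
  · have : p * 1 ≤ p * g := Nat.mul_le_mul_left _ hg1
    have := n.l21
    omega

/-- `b_(1,0)`-surjectivity for `k = p - 1`. -/
theorem Ep1 (hp : 11 ≤ p) (hL : L.Nodup) (h0 : (0, 0) ∉ L) {j s N : ℕ}
    (hj : j + 4 ≤ (p - 1) * (p - 1)) (hs : s + 2 * j = 2 * ((p - 1) * (p - 1)) + 1)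
    (hN : N + p * j = 2 * p + p ^ 2 + p ^ 3) : ¬ Mon p L s N := by
  intro hM
  have e3 := pow3_gt hp
  have e2 := pow2_gt hp
  obtain ⟨n, hs', hN'⟩ := hM.df (by omega) hL (lt_pow4 hp (by omega))
  have hc := n.c0_le
  obtain ⟨k0, l1, l2, l3, l4, k1, k2, k3⟩ := n.low
  have hd := n.d0 h0 hs'
  subst hN'
  obtain ⟨hc0, hN1⟩ := digit (p := p) (c := n.c0) (n := 0)
      (A := n.c1 + p * (n.c2 + p * n.c3) + j) (B := 2 + p * (1 + p * 1)) (by omega) (by omega)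
      (by linear_combination hN)
  have h5 := mul_c2_c3 (p := p) (by omega) n.c2 n.c3
  obtain ⟨r, rfl⟩ : ∃ r, p = r + 1 := ⟨p - 1, by omega⟩
  rw [Nat.add_sub_cancel] at hj hs
  obtain ⟨J, hJ⟩ : ∃ J, r * r = j + 4 + J := ⟨r * r - (j + 4), by omega⟩
  rw [hJ] at hs
  have h6 : (r + 1) * (1 + (r + 1) * 1) = j + J + 3 * r + 6 := by linear_combination hJ
  rw [h6] at hN1
  have h7 : (r + 1) * (J + 4) ≤ (r + 1) * (n.c2 + n.c3) := Nat.mul_le_mul_left _ (by omega)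
  have h8 : (r + 1) * (J + 4) = r * J + 4 * r + J + 4 := by ring
  rw [h8] at h7
  have h9 : 0 ≤ r * J := Nat.zero_le _
  clear hN hs' hc0
  omega

/-- Nothing in degrees `N = -1` mod `p`. -/
theorem res (hp : 11 ≤ p) (hL : L.Nodup) {s N B : ℕ} (hN : N + 1 = p * B) (hlt : N < p ^ 4) :
    ¬ Mon p L s N := by
  intro hM
  obtain ⟨n, hs', hN'⟩ := hM.df (by omega) hL hlt
  have hc := n.c0_le
  obtain ⟨r, rfl⟩ : ∃ r, p = r + 1 := ⟨p - 1, by omega⟩
  obtain ⟨b, rfl⟩ : ∃ b, B = b + 1 := ⟨B - 1, by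
    rcases Nat.eq_zero_or_pos B with h | h
    · subst h; omega
    · omega⟩
  subst hN'
  obtain ⟨hc0, hN1⟩ := digit (p := r + 1) (c := n.c0) (n := r)
      (A := n.c1 + (r + 1) * (n.c2 + (r + 1) * n.c3)) (B := b) (by omega) (by omega)
      (by linear_combination hN)
  omega

/-- `b_(1,0)`-surjectivity for `k = p`, first condition. -/
theorem Ep (hp : 11 ≤ p) (hL : L.Nodup) (h0 : (0, 0) ∉ L) {m : ℕ} (hm : 1 ≤ m)
    (hm' : m ≤ p ^ 2) : ¬ Mon p L (5 + 2 * m) (1 + 4 * p + 2 * p ^ 2 + m * p) := by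
  intro hM
  have e3 := pow3_gt hp
  have e2 := pow2_gt hp
  have e1 : m * p ≤ p ^ 2 * p := Nat.mul_le_mul_right _ hm'
  have e1' : p ^ 2 * p = p ^ 3 := by ring
  rw [e1'] at e1
  obtain ⟨n, hs', hN'⟩ := hM.df (by omega) hL (lt_pow4 hp (by omega))
  have hc := n.c0_le
  obtain ⟨k0, l1, l2, l3, l4, k1, k2, k3⟩ := n.low
  have hd := n.d0 h0 hs'
  obtain ⟨hc0, hN1⟩ := digit (p := p) (c := n.c0) (n := 1)
      (B := 4 + m + p * 2) (by omega) (by omega) (by rw [← hN']; ring)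
  have h5 := mul_c2_c3 (p := p) (by omega) n.c2 n.c3
  obtain ⟨r, rfl⟩ : ∃ r, p = r + 1 := ⟨p - 1, by omega⟩
  clear e1' e1 hm' e2 e3
  have hm1 : m = 1 := by
    have h7 : (r + 1) * (m + 1) ≤ (r + 1) * (n.c2 + n.c3) := Nat.mul_le_mul_left _ (by omega)
    have h8 : (r + 1) * (m + 1) = r * m + r + m + 1 := by ring
    rw [h8] at h7
    by_contra hne
    have h9 : r * 2 ≤ r * m := Nat.mul_le_mul_left _ (by omega)
    omega
  subst hm1
  have h3 : n.c3 = 0 := by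
    by_contra hc
    have h9 : (r + 1) * (n.c2 + (r + 1) * n.c3) = (r + 1) * n.c2 + (r + 1) * ((r + 1) * n.c3) := by
      ring
    have h10 : (r + 1) * 1 ≤ (r + 1) * n.c3 := Nat.mul_le_mul_left _ (by omega)
    have h11 : (r + 1) * (11 * 1) ≤ (r + 1) * ((r + 1) * n.c3) :=
      Nat.mul_le_mul_left _ (by omega)
    omega
  have h2 : n.c2 ≤ 2 := by
    by_contra hc
    simp only [h3, Nat.mul_zero, Nat.add_zero] at hN1
    have h9 : (r + 1) * 3 ≤ (r + 1) * n.c2 := Nat.mul_le_mul_left _ (by omega)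
    omega
  have h2' : n.c2 = 2 := by omega
  simp only [h3, h2', Nat.mul_zero, Nat.add_zero] at hN1
  have h1' : n.c1 = 5 := by omega
  obtain ⟨e1, e2⟩ := n.e10 h0
  have m1 := n.h1
  have m2 := n.h2
  have m3 := n.h3
  have m4 := n.l11
  rw [h3] at m3
  obtain ⟨z1, z2, z3, z4, z5, z6, z7⟩ := sum_zero₇ m3
  rw [e2, h1', z3, z4, z5] at m1
  rw [h2', z2, z3, z4, z5, z6] at m2
  rw [e1, z4, hc0] at k0
  clear hN' hN1 hs' hM h5 hd k1 k2 k3 l4 hc
  omega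

/-- `b_(1,0)`-surjectivity for `k = p`, second condition. -/
theorem Ep' (hp : 11 ≤ p) (hL : L.Nodup) (h0 : (0, 0) ∉ L) {m N : ℕ} (hm : 1 ≤ m)
    (hm' : m ≤ p ^ 2) (hN : N = 4 * p + 2 * p ^ 2 + m * p) : ¬ Mon p L (4 + 2 * m) N := by
  subst hN
  intro hM
  have e3 := pow3_gt hp
  have e2 := pow2_gt hp
  have e1 : m * p ≤ p ^ 2 * p := Nat.mul_le_mul_right _ hm'
  have e1' : p ^ 2 * p = p ^ 3 := by ring
  rw [e1'] at e1
  obtain ⟨n, hs', hN'⟩ := hM.df (by omega) hL (lt_pow4 hp (by omega))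
  have hc := n.c0_le
  have hd := n.d0 h0 hs'
  obtain ⟨hc0, hN1⟩ := digit (p := p) (c := n.c0) (n := 0)
      (B := 4 + m + p * 2) (by omega) (by omega) (by rw [← hN']; ring)
  have h5 := mul_c2_c3 (p := p) (by omega) n.c2 n.c3
  obtain ⟨r, rfl⟩ : ∃ r, p = r + 1 := ⟨p - 1, by omega⟩
  clear e1' e1 hm' e2 e3
  have h7 : (r + 1) * (m + 2) ≤ (r + 1) * (n.c2 + n.c3) := Nat.mul_le_mul_left _ (by omega)
  have h8 : (r + 1) * (m + 2) = r * m + 2 * r + m + 2 := by ring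
  rw [h8] at h7
  have h9 : r * 1 ≤ r * m := Nat.mul_le_mul_left _ (by omega)
  omega

/-- `b_(1,0)`-surjectivity for `G6`, `j = p - 1`. -/
theorem E6 (hp : 11 ≤ p) (hL : L.Nodup) (h0 : (0, 0) ∉ L) {j s N : ℕ}
    (hj : j + 1 ≤ (p - 1) * (p - 1)) (hs : s + 2 * j = 2 * ((p - 1) * (p - 1)) + 6)
    (hN : N + p * j = 5 * p + p ^ 2 + p ^ 3) : ¬ Mon p L s N := by
  intro hM
  have e3 := pow3_gt hp
  have e2 := pow2_gt hp
  obtain ⟨n, hs', hN'⟩ := hM.df (by omega) hL (lt_pow4 hp (by omega))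
  have hc := n.c0_le
  have hd := n.d0 h0 hs'
  subst hN'
  obtain ⟨hc0, hN1⟩ := digit (p := p) (c := n.c0) (n := 0)
      (A := n.c1 + p * (n.c2 + p * n.c3) + j) (B := 5 + p * (1 + p * 1)) (by omega) (by omega)
      (by linear_combination hN)
  have h5 := mul_c2_c3 (p := p) (by omega) n.c2 n.c3
  obtain ⟨r, rfl⟩ : ∃ r, p = r + 1 := ⟨p - 1, by omega⟩
  rw [Nat.add_sub_cancel] at hj hs
  obtain ⟨J, hJ⟩ : ∃ J, r * r = j + 1 + J := ⟨r * r - (j + 1), by omega⟩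
  rw [hJ] at hs
  have h6 : (r + 1) * (1 + (r + 1) * 1) = j + J + 3 * r + 3 := by linear_combination hJ
  rw [h6] at hN1
  have h7 : (r + 1) * (J + 4) ≤ (r + 1) * (n.c2 + n.c3) := Nat.mul_le_mul_left _ (by omega)
  have h8 : (r + 1) * (J + 4) = r * J + 4 * r + J + 4 := by ring
  rw [h8] at h7
  have h9 : 0 ≤ r * J := Nat.zero_le _
  clear hN hs' hc0
  omega

/-- `b_(1,0)^3`-surjectivity for `G6'`, first condition. -/
theorem E6a (hp : 11 ≤ p) (hL : L.Nodup) (h0 : (0, 0) ∉ L) {a s N : ℕ} (ha : a ≤ 3)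
    (hN : N = 3 + p + p ^ 2 + p ^ 3 + a * p) : ¬ Mon p L s N := by
  intro hM
  have e3 := pow3_gt hp
  have e2 := pow2_gt hp
  have e1 : a * p ≤ 3 * p := Nat.mul_le_mul_right _ ha
  obtain ⟨n, hs, hN'⟩ := hM.df (by omega) hL (lt_pow4 hp (by omega))
  have hc := n.c0_le
  obtain ⟨k0, l1, l2, l3, l4, k1, k2, k3⟩ := n.low
  have hd := n.d0 h0 hs
  subst hN
  obtain ⟨hc0, hN1⟩ := digit (p := p) (c := n.c0) (n := 3)
      (B := 1 + a + p * (1 + p * 1)) (by omega) (by omega) (by rw [← hN']; ring)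
  have h3 : p ^ 2 * 1 ≤ p ^ 2 * n.c3 := Nat.mul_le_mul_left _ (by omega)
  have h4 : p * 2 ≤ p * n.c2 := Nat.mul_le_mul_left _ (by omega)
  have h5 : p * (n.c2 + p * n.c3) = p * n.c2 + p ^ 2 * n.c3 := by ring
  have h6 : p * (1 + p * 1) = p + p ^ 2 := by ring
  omega

/-- `b_(1,0)^3`-surjectivity for `G6'`, second condition. -/
theorem E6a' (hp : 11 ≤ p) (hL : L.Nodup) (h0 : (0, 0) ∉ L) {a s N : ℕ} (ha : a ≤ 3)
    (hs : s + 5 = 4 * p + 2 * a) (hN : N = 2 + p + p ^ 2 + p ^ 3 + a * p) : ¬ Mon p L s N := by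
  intro hM
  have e3 := pow3_gt hp
  have e2 := pow2_gt hp
  have e1 : a * p ≤ 3 * p := Nat.mul_le_mul_right _ ha
  obtain ⟨n, hs', hN'⟩ := hM.df (by omega) hL (lt_pow4 hp (by omega))
  have hc := n.c0_le
  obtain ⟨k0, l1, l2, l3, l4, k1, k2, k3⟩ := n.low
  have hd := n.d0 h0 hs'
  subst hN
  obtain ⟨hc0, hN1⟩ := digit (p := p) (c := n.c0) (n := 2)
      (B := 1 + a + p * (1 + p * 1)) (by omega) (by omega) (by rw [← hN']; ring)
  have h5 := mul_c2_c3 (p := p) (by omega) n.c2 n.c3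
  have h6 : p * (1 + p * 1) = p + p * p := by ring
  have h7 : n.c2 + n.c3 ≤ p + 1 := by
    by_contra hlt
    have h8 : p * (p + 2) ≤ p * (n.c2 + n.c3) := Nat.mul_le_mul_left _ (by omega)
    have h9 : p * (p + 2) = 2 * p + p * p := by ring
    omega
  omega

/-- `b_(1,0)^3`-injectivity for `G7`, first condition. -/
theorem M7 (hp : 11 ≤ p) (hL : L.Nodup) (h0 : (0, 0) ∉ L) {a s N : ℕ} (ha : a ≤ 2)
    (hs : s = p * (2 * (p - 1)) + 2 + 2 * a) (hN : N = ee p + (2 + a) * p) : ¬ Mon p L s N := by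
  intro hM
  have e3 := pow3_gt hp
  have e2 := pow2_gt hp
  have e1 : (2 + a) * p ≤ 4 * p := Nat.mul_le_mul_right _ (by omega)
  obtain ⟨n, hs', hN'⟩ := hM.df (by omega) hL (lt_pow4 hp (by simp only [hN, ee]; omega))
  simp only [ee] at hN
  have hc := n.c0_le
  obtain ⟨k0, l1, l2, l3, l4, k1, k2, k3⟩ := n.low
  have hd := n.d0 h0 hs'
  subst hN
  obtain ⟨hc0, hN1⟩ := digit (p := p) (c := n.c0) (n := 1)
      (B := 3 + a + p * (1 + p * 1)) (by omega) (by omega) (by rw [← hN']; ring)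
  have h5 := mul_c2_c3 (p := p) (by omega) n.c2 n.c3
  have h6 : p * (1 + p * 1) = p + p * p := by ring
  have h7 : n.c2 + n.c3 ≤ p + 1 := by
    by_contra hlt
    have h8 : p * (p + 2) ≤ p * (n.c2 + n.c3) := Nat.mul_le_mul_left _ (by omega)
    have h9 : p * (p + 2) = 2 * p + p * p := by ring
    omega
  obtain ⟨r, rfl⟩ : ∃ r, p = r + 1 := ⟨p - 1, by omega⟩
  rw [Nat.add_sub_cancel] at hs
  have h8 : (r + 1) * (2 * r) = 2 * (r * r) + 2 * r := by ring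
  have h9 : 10 * r ≤ r * r := Nat.mul_le_mul_right _ (by omega)
  clear hN' hs' hN1 h5 h6
  omega

/-- `b_(1,0)^3`-injectivity for `G7`, second condition. -/
theorem M7' (hp : 11 ≤ p) (hL : L.Nodup) (h0 : (0, 0) ∉ L) {a s N : ℕ} (ha : a ≤ 2)
    (hs : s = p * (2 * (p - 1)) + 1 + 2 * a) (hN : N + 1 = ee p + (2 + a) * p) :
    ¬ Mon p L s N := by
  intro hM
  have e3 := pow3_gt hp
  have e2 := pow2_gt hp
  have e1 : (2 + a) * p ≤ 4 * p := Nat.mul_le_mul_right _ (by omega)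
  simp only [ee] at hN
  obtain rfl : N = p + p ^ 2 + p ^ 3 + (2 + a) * p := by omega
  obtain ⟨n, hs', hN'⟩ := hM.df (by omega) hL (lt_pow4 hp (by omega))
  have hc := n.c0_le
  have hd := n.d0 h0 hs'
  obtain ⟨hc0, hN1⟩ := digit (p := p) (c := n.c0) (n := 0)
      (B := 3 + a + p * (1 + p * 1)) (by omega) (by omega) (by rw [← hN']; ring)
  have h5 := mul_c2_c3 (p := p) (by omega) n.c2 n.c3
  have h6 : p * (1 + p * 1) = p + p * p := by ring
  have h7 : n.c2 + n.c3 ≤ p + 1 := by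
    by_contra hlt
    have h8 : p * (p + 2) ≤ p * (n.c2 + n.c3) := Nat.mul_le_mul_left _ (by omega)
    have h9 : p * (p + 2) = 2 * p + p * p := by ring
    omega
  obtain ⟨r, rfl⟩ : ∃ r, p = r + 1 := ⟨p - 1, by omega⟩
  rw [Nat.add_sub_cancel] at hs
  have h8 : (r + 1) * (2 * r) = 2 * (r * r) + 2 * r := by ring
  have h9 : 10 * r ≤ r * r := Nat.mul_le_mul_right _ (by omega)
  clear hN' hs' hN1 h5 h6
  omega

end Vale.Agent.P257.N
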