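import Vale.Agent.P257.N.Count
import Vale.Agent.P257.X.Iface

/-! The monomial counts for the small groups. -/

namespace Vale.Agent.P257.N

open Finset Vale.Agent.P257.X

variable {p : ℕ}

/-- A system of three digits. -/
theorem NF.digits {s a b c : ℕ} {L : List (ℕ × ℕ)} (hp : 11 ≤ p) (n : NF p s (a + p * (b + p * c)) L)
    (hs : s ≤ 5) (ha : a ≤ 4) (hb : b ≤ 4) (hc : c ≤ 4) :
    n.h10 + n.h20 + n.h30 + n.h40 = a ∧
    n.h11 + n.h21 + n.h31 + n.h20 + n.h30 + n.h40 + n.b10 + n.b20 + n.b30 = b ∧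
    n.h12 + n.h22 + n.h21 + n.h31 + n.h30 + n.h40 + n.b20 + n.b30 + n.b11 + n.b21 = c ∧
    n.h13 + n.h22 + n.h31 + n.h40 + n.b30 + n.b21 + n.b12 = 0 := by
  have hN := n.hN
  have hs' := n.hs
  obtain ⟨c0, hN⟩ := digit (by linarith) (by linarith) hN.symm
  obtain ⟨c1, hN⟩ := digit (by linarith) (by linarith) hN
  have hN : n.h12 + n.h22 + n.h21 + n.h31 + n.h30 + n.h40 + n.b20 + n.b30 + n.b11 + n.b21 +
    p * (n.h13 + n.h22 + n.h31 + n.h40 + n.b30 + n.b21 + n.b12) = c + p * 0 := by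
    rw [mul_zero, add_zero]; exact hN
  obtain ⟨c2, c3⟩ := digit (by linarith) (by linarith) hN
  exact ⟨c0, c1, c2, c3⟩

theorem S1k (hp : 11 ≤ p) : NM p 3 (3 + 3 * p + p ^ 2) := by
  intro L hL h
  obtain ⟨n⟩ := h.nf (by omega) hL (lt_pow4 hp (by
    have := pow3_gt hp
    have := pow2_gt hp
    omega))
  have e : 3 + 3 * p + p ^ 2 = 3 + p * (3 + p * 1) := by ring
  obtain ⟨c0, c1, c2, c3⟩ := NF.digits hp (e ▸ n) (by norm_num) (by norm_num) (by norm_num) (by norm_num)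
  generalize (e ▸ n : NF p 3 (3 + p * (3 + p * 1)) L) = n at *
  have hs := n.hs
  have l20 := n.l20
  have l30 := n.l30
  have l40 := n.l40
  have l10 := n.l10
  linarith

theorem S2a (hp : 11 ≤ p) : NM p 4 (4 * p + 2 * p ^ 2) := by
  intro L hL h
  obtain ⟨n⟩ := h.nf (by omega) hL (lt_pow4 hp (by
    have := pow3_gt hp
    have := pow2_gt hp
    omega))
  have e : 4 * p + 2 * p ^ 2 = 0 + p * (4 + p * 2) := by ring
  obtain ⟨c0, c1, c2, c3⟩ := NF.digits hp (e ▸ n) (by norm_num) (by norm_num) (by norm_num) (by norm_num)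
  generalize (e ▸ n : NF p 4 (0 + p * (4 + p * 2)) L) = n at *
  have hs := n.hs
  have l11 := n.l11
  have l21 := n.l21
  have l31 := n.l31
  linarith

theorem S2b (hp : 11 ≤ p) : NM p 5 (4 * p + 2 * p ^ 2) := by
  intro L hL h
  obtain ⟨n⟩ := h.nf (by omega) hL (lt_pow4 hp (by
    have := pow3_gt hp
    have := pow2_gt hp
    omega))
  have e : 4 * p + 2 * p ^ 2 = 0 + p * (4 + p * 2) := by ring
  obtain ⟨c0, c1, c2, c3⟩ := NF.digits hp (e ▸ n) (by norm_num) (by norm_num) (by norm_num) (by norm_num)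
  generalize (e ▸ n : NF p 5 (0 + p * (4 + p * 2)) L) = n at *
  have hs := n.hs
  have l11 := n.l11
  have l21 := n.l21
  have l31 := n.l31
  linarith

end Vale.Agent.P257.N
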